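import Mathlib

namespace Vale.Agent.P090

open Finset

theorem sqrt_sub_sq (a b : ℝ) : (√(max a 0) - √(max b 0)) ^ 2 ≤ |a - b| := by
  have ha : 0 ≤ max a 0 := le_max_right _ _
  have hb : 0 ≤ max b 0 := le_max_right _ _
  have h1 := abs_max_sub_max_le_abs a b 0
  have h2 := Real.sq_sqrt ha
  have h3 := Real.sq_sqrt hb
  have h4 := Real.sqrt_nonneg (max a 0)
  have h5 := Real.sqrt_nonneg (max b 0)
  set x := √(max a 0)
  set y := √(max b 0)
  rw [← h2, ← h3] at h1
  refine le_trans ?_ h1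
  rcases le_total x y with h | h
  · rw [abs_sub_comm]
    refine le_trans ?_ (le_abs_self _)
    nlinarith
  · refine le_trans ?_ (le_abs_self _)
    nlinarith

theorem anal {T W H : Type} [Fintype T] [Fintype W] [Fintype H] [AddGroup H] [Nonempty T]
    (g : T → H → W → ℝ) (η : H → W → ℝ) {K θ δ κ : ℝ} (hδ0 : 0 ≤ δ)
    (hK : ∀ t ω, ∑ w, max (g t ω w) 0 ≤ K) (hη0 : ∀ ω w, 0 ≤ η ω w) (hη1 : ∀ ω w, η ω w ≤ 1)
    (hδ : ∀ w, ∑ ω, η ω w ≤ δ * Fintype.card H) (hκ : ∀ t ω, κ ≤ ∑ w, η ω w * g t ω w)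
    (hsp : ∀ c, ∑ t, ∑ ω, ∑ w, (√(max (g t (ω + c) w) 0) - √(max (g t ω w) 0)) ^ 2
      ≤ θ * (Fintype.card T * Fintype.card H)) :
    κ ≤ 2 * δ * K + 2 * θ := by
  have hT : (0 : ℝ) < Fintype.card T := by exact_mod_cast Fintype.card_pos
  have hH : (0 : ℝ) < Fintype.card H := by exact_mod_cast Fintype.card_pos
  set p : T → H → W → ℝ := fun t ω w => max (g t ω w) 0 with hp
  have hp0 : ∀ t ω w, 0 ≤ p t ω w := fun _ _ _ => le_max_right _ _
  have k1 : κ * (Fintype.card T * Fintype.card H) ≤ ∑ t, ∑ ω, ∑ w, η ω w * p t ω w := by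
    have e : κ * (Fintype.card T * Fintype.card H) = ∑ _t : T, ∑ _ω : H, κ := by
      simp only [sum_const, card_univ, nsmul_eq_mul]
      ring
    rw [e]
    refine sum_le_sum fun t _ => sum_le_sum fun ω _ => (hκ t ω).trans (sum_le_sum fun w _ => ?_)
    exact mul_le_mul_of_nonneg_left (le_max_left _ _) (hη0 ω w)
  have k2 : ∀ c, ∑ t, ∑ ω, ∑ w, η ω w * p t ω w
      ≤ 2 * ∑ t, ∑ ω, ∑ w, η ω w * p t (ω + c) w + 2 * (θ * (Fintype.card T * Fintype.card H)) := by
    intro c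
    have e : ∑ t, ∑ ω, ∑ w, η ω w * p t ω w ≤ 2 * ∑ t, ∑ ω, ∑ w, η ω w * p t (ω + c) w
        + 2 * ∑ t, ∑ ω, ∑ w, (√(p t (ω + c) w) - √(p t ω w)) ^ 2 := by
      simp only [mul_sum, ← sum_add_distrib]
      refine sum_le_sum fun t _ => sum_le_sum fun ω _ => sum_le_sum fun w _ => ?_
      have h2 := Real.sq_sqrt (hp0 t ω w)
      have h3 := Real.sq_sqrt (hp0 t (ω + c) w)
      set x := √(p t ω w)
      set y := √(p t (ω + c) w)
      rw [← h2, ← h3]
      have h4 : x ^ 2 ≤ 2 * y ^ 2 + 2 * (y - x) ^ 2 := by nlinarith [sq_nonneg (2 * y - x)]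
      have h5 := mul_le_mul_of_nonneg_left h4 (hη0 ω w)
      have h6 := mul_le_mul_of_nonneg_right (hη1 ω w) (sq_nonneg (y - x))
      nlinarith
    linarith [hsp c]
  have k3 : ∑ c : H, ∑ t, ∑ ω, ∑ w, η ω w * p t (ω + c) w
      ≤ δ * Fintype.card H * (K * (Fintype.card T * Fintype.card H)) := by
    have e1 : ∑ c : H, ∑ t, ∑ ω, ∑ w, η ω w * p t (ω + c) w
        = ∑ t, ∑ w, (∑ ω, η ω w) * ∑ c, p t c w := by
      rw [sum_comm]
      refine sum_congr rfl fun t _ => ?_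
      rw [sum_comm]
      have e : ∀ ω, ∑ c : H, ∑ w, η ω w * p t (ω + c) w = ∑ w, η ω w * ∑ c, p t c w := by
        intro ω
        rw [sum_comm]
        refine sum_congr rfl fun w _ => ?_
        rw [← mul_sum]
        congr 1
        exact Equiv.sum_comp (Equiv.addLeft ω) fun c => p t c w
      simp only [e]
      rw [sum_comm]
      simp only [sum_mul]
    have e2 : ∑ t, ∑ w, (∑ ω, η ω w) * ∑ c, p t c w
        ≤ ∑ t, ∑ w, δ * Fintype.card H * ∑ c, p t c w :=
      sum_le_sum fun t _ => sum_le_sum fun w _ =>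
        mul_le_mul_of_nonneg_right (hδ w) (sum_nonneg fun c _ => hp0 _ _ _)
    have e3 : ∑ t, ∑ w, ∑ c, p t c w ≤ K * (Fintype.card T * Fintype.card H) := by
      have e : K * (Fintype.card T * Fintype.card H) = ∑ _t : T, ∑ _ω : H, K := by
        simp only [sum_const, card_univ, nsmul_eq_mul]
        ring
      rw [e]
      refine sum_le_sum fun t _ => ?_
      rw [sum_comm]
      exact sum_le_sum fun ω _ => hK t ω
    simp only [← mul_sum] at e2
    rw [e1]
    exact e2.trans (mul_le_mul_of_nonneg_left e3 (by positivity))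
  have k4 := sum_le_sum fun c (_ : c ∈ (univ : Finset H)) => k1.trans (k2 c)
  simp only [sum_add_distrib, sum_const, card_univ, nsmul_eq_mul] at k4
  rw [← mul_sum] at k4
  have k5 : (Fintype.card H * (Fintype.card T * Fintype.card H)) * κ
      ≤ (Fintype.card H * (Fintype.card T * Fintype.card H)) * (2 * δ * K + 2 * θ) := by
    linarith
  exact le_of_mul_le_mul_left k5 (by positivity)

end Vale.Agent.P090
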