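import Vale.Agent.P090.Geom

namespace Vale.Agent.P090

open Finset Pointwise

variable {G T X : Type} [Group G] [DecidableEq G] [MulAction G T] [MulAction G X]

def Ed (S : Finset G) (π : X → X) (D : ℝ) (u v : T × X) (l : ℝ) : Prop :=
  (∃ s ∈ S, v = s • u ∧ l = 1) ∨ (v = (u.1, π u.2) ∧ l = D)

theorem geom {S : Finset G} (h1 : (1 : G) ∈ S) (hi : ∀ s ∈ S, s⁻¹ ∈ S) {L : ℕ}
    (hfree : ∀ γ ∈ S ^ (L + 1), ∀ γ' ∈ S ^ (L + 1), ∀ t : T, γ • t = γ' • t → γ = γ')
    (π : X → X) (hπ : ∀ (g : G) x, g • π x = π x) {D lam : ℝ} (hD : 1 ≤ D) (hDL : D ≤ L)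
    (A : Finset (T × X)) (hA : ∀ t x, (t, π x) ∈ A) (hg : Good (Ed S π D) L lam A) :
    ∃ B : Finset X, ∀ (W : SubMulAction G X) [Fintype W], (∀ x ∈ B, x ∈ W) →
      ∃ g : T → X → W → ℝ,
        (∀ t x, ∑ w, max (g t x w) 0 ≤ 2 * lam + 3) ∧
        (∀ s ∈ S, ∀ t x, ∑ w, |g (s • t) (s • x) (s • w) - g t x w|
          ≤ 2 * lam / D + (3 + 2 * lam * D) / L) ∧
        (∀ η : X → ℝ, (∀ x, |η x| ≤ 1) → (∀ γ ∈ S ^ L, ∀ x, |η (γ • x) - η (π x)| ≤ 1 / L) →
          ∀ t x, η (π x) - (1 + lam * D) / L ≤ ∑ w : W, η w * g t x w) := by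
  classical
  obtain ⟨B, ν, hν⟩ := hg
  have hD0 : 0 < D := by linarith
  have hL0 : (0 : ℝ) < L := by linarith
  have hL0' : 0 < L := by exact_mod_cast hL0
  have hL1 : (1 : ℝ) ≤ L := by linarith
  let pr : T × X → (T × X → ℝ) → ℝ := fun u F => ∑ b ∈ B, ν u b * F b
  have H2 : ∀ (F : T × X → ℝ) (c : ℝ), 0 < c → EdgeLip (Ed S π D) c F → (∀ u, |F u| ≤ c * L) →
      ∀ t x, |pr (t, x) F - F (t, π x)| ≤ c * (1 + lam * D) := by
    intro F c hc hF hFb t x
    obtain ⟨k1, k2⟩ := hν F c hc hF hFb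
    have k3 := k1 (t, x) (t, π x) D (Or.inr ⟨rfl, rfl⟩)
    have k4 := k2 _ (hA t x)
    have k5 := abs_sub_le (pr (t, x) F) (pr (t, π x) F) (F (t, π x))
    simp only [pr] at k5 ⊢
    linarith
  have lip1 : ∀ (t : T) (σ : X → ℝ), (∀ x, |σ x| ≤ 1) →
      EdgeLip (Ed S π D) (2 / D) (Ft S L t σ) ∧ ∀ u, |Ft S L t σ u| ≤ 2 / D * L := by
    intro t σ hσ
    refine ⟨?_, fun u => (Ft_bound L t hσ u).trans ?_⟩
    · rintro u v l (⟨s, hs, rfl, rfl⟩ | ⟨rfl, rfl⟩)
      · refine (Ft_edge h1 hi hfree t hσ u hs).trans ?_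
        rw [mul_one, div_le_div_iff₀ hL0 hD0]
        linarith
      · rw [div_mul_cancel₀ _ hD0.ne']
        have k1 := Ft_bound (S := S) L t hσ u
        have k2 := Ft_bound (S := S) L t hσ (u.1, π u.2)
        linarith [abs_sub (Ft S L t σ u) (Ft S L t σ (u.1, π u.2))]
    · rw [div_mul_eq_mul_div, le_div_iff₀ hD0]
      linarith
  refine ⟨B.image Prod.snd, fun W _ hW => ?_⟩
  let g : T → X → W → ℝ := fun t x w => pr (t, x) (Ft S L t fun y => if y = w then 1 else 0)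
  have hsum : ∀ (σ : X → ℝ) t x, ∑ w : W, σ w * g t x w = pr (t, x) (Ft S L t σ) := by
    intro σ t x
    simp only [g, pr, mul_sum]
    rw [sum_comm]
    refine sum_congr rfl fun b hb => ?_
    have hb' : gam S L b.1 t • b.2 ∈ W := W.smul_mem _ (hW _ (mem_image_of_mem _ hb))
    rw [sum_eq_single ⟨_, hb'⟩]
    · simp only [Ft, if_true]
      ring
    · intro w _ hw
      have : ¬ (gam S L b.1 t • b.2 = w) := fun h => hw (Subtype.ext h.symm)
      simp only [Ft, if_neg this]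
      ring
    · intro h
      exact absurd (mem_univ _) h
  have ext : ∀ σ : W → ℝ, (∀ w, |σ w| ≤ 1) → ∃ σ' : X → ℝ, (∀ x, |σ' x| ≤ 1) ∧
      ∀ w : W, σ' w = σ w := by
    intro σ hσ
    refine ⟨fun x => if h : x ∈ W then σ ⟨x, h⟩ else 0, fun x => ?_, fun w => ?_⟩
    · by_cases h : x ∈ W
      · simpa [h] using hσ _
      · simp [h]
    · simp [w.2]
  refine ⟨g, fun t x => ?_, fun s hs t x => ?_, fun η hη hη' t x => ?_⟩
  · obtain ⟨σ, hσ, hσ'⟩ := ext (fun w => if 0 ≤ g t x w then 1 else 0) fun w => by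
      split_ifs <;> simp
    have e : ∑ w, max (g t x w) 0 = ∑ w : W, σ w * g t x w := by
      refine sum_congr rfl fun w _ => ?_
      rw [hσ']
      split_ifs with h
      · rw [max_eq_left h, one_mul]
      · rw [max_eq_right (le_of_not_ge h), zero_mul]
    rw [e, hsum]
    have k1 := H2 _ _ (by positivity) (lip1 t σ hσ).1 (lip1 t σ hσ).2 t x
    have k2 := Ft_bound (S := S) L t hσ (t, π x)
    have k3 : 2 / D * (1 + lam * D) = 2 / D + 2 * lam := by field_simp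
    have k4 : 2 / D ≤ 2 := div_le_self (by norm_num) hD
    linarith [(abs_le.1 k1).2, (abs_le.1 k2).2]
  · obtain ⟨σ, hσ, hσ'⟩ := ext
      (fun w => if 0 ≤ g (s • t) (s • x) (s • w) - g t x w then 1 else -1) fun w => by
        split_ifs <;> simp
    have e : ∑ w, |g (s • t) (s • x) (s • w) - g t x w|
        = ∑ w : W, σ w * g (s • t) (s • x) (s • w) - ∑ w : W, σ w * g t x w := by
      rw [← sum_sub_distrib]
      refine sum_congr rfl fun w _ => ?_
      rw [hσ', ← mul_sub]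
      split_ifs with h
      · rw [abs_of_nonneg h, one_mul]
      · rw [abs_of_neg (lt_of_not_ge h), neg_one_mul]
    have e2 : ∑ w : W, σ w * g (s • t) (s • x) (s • w)
        = ∑ w : W, (fun y => σ (s⁻¹ • y)) w * g (s • t) (s • x) w := by
      rw [← Equiv.sum_comp (MulAction.toPerm s : Equiv.Perm W)
        fun w : W => (fun y => σ (s⁻¹ • y)) w * g (s • t) (s • x) w]
      refine sum_congr rfl fun w _ => ?_
      simp
    rw [e, e2, hsum σ, hsum fun y => σ (s⁻¹ • y)]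
    let Φ : T × X → ℝ := fun v => Ft S L (s • t) (fun y => σ (s⁻¹ • y)) v - Ft S L t σ v
    have hΦ : ∀ v, |Φ v| ≤ 1 / L := fun v => Ft_shift h1 hi hfree t hσ v hs
    have hΦ2 : ∀ u v, |Φ u - Φ v| ≤ 2 / L := by
      intro u v
      have k1 := abs_sub (Φ u) (Φ v)
      have k2 : (2 : ℝ) / L = 1 / L + 1 / L := by ring
      linarith [hΦ u, hΦ v]
    have k1 := H2 Φ (2 / L) (by positivity) (by
      rintro u v l (⟨s, hs, rfl, rfl⟩ | ⟨rfl, rfl⟩)
      · rw [mul_one]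
        exact hΦ2 _ _
      · exact (hΦ2 _ _).trans (le_mul_of_one_le_right (by positivity) hD)) (fun u => by
      refine (hΦ u).trans ?_
      rw [div_mul_cancel₀ _ hL0.ne']
      exact (div_le_self zero_le_one hL1).trans (by norm_num)) (s • t) (s • x)
    have k2 := (hν _ _ (by positivity) (lip1 t σ hσ).1 (lip1 t σ hσ).2).1 (t, x) (s • t, s • x) 1
      (Or.inl ⟨s, hs, rfl, rfl⟩)
    have k3 : pr (s • t, s • x) Φ = pr (s • t, s • x) (Ft S L (s • t) fun y => σ (s⁻¹ • y))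
        - pr (s • t, s • x) (Ft S L t σ) := by
      simp only [pr, Φ, mul_sub, sum_sub_distrib]
    have k4 := hΦ (s • t, π (s • x))
    have k5 : (3 + 2 * lam * D) / L = 1 / L + 2 / L * (1 + lam * D) := by ring
    have k6 : lam * (2 / D) * 1 = 2 * lam / D := by ring
    rw [k3] at k1
    simp only [pr] at k1 ⊢
    linarith [(abs_le.1 k1).2, (abs_le.1 k2).1, (abs_le.1 k4).2]
  · rw [hsum]
    have k1 := H2 (Ft S L t η) (1 / L) (by positivity) (by
      rintro u v l (⟨s, hs, rfl, rfl⟩ | ⟨rfl, rfl⟩)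
      · rw [mul_one]
        exact Ft_edge h1 hi hfree t hη u hs
      · simp only [Ft, hπ]
        rw [← mul_sub, abs_mul, abs_of_nonneg (cw_nonneg _ _ _)]
        have k1 := hη' _ (gam_mem h1 L u.1 t) u.2
        refine (mul_le_of_le_one_left (abs_nonneg _) (cw_le_one _ _ _)).trans (k1.trans ?_)
        exact le_mul_of_one_le_right (by positivity) hD) (fun u => by
      rw [div_mul_cancel₀ _ hL0.ne']
      exact Ft_bound L t hη u) t x
    have k2 : Ft S L t η (t, π x) = η (π x) := by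
      simp only [Ft, hπ, cw_self h1 hL0', one_mul]
    have k3 : 1 / (L : ℝ) * (1 + lam * D) = (1 + lam * D) / L := by ring
    rw [k2] at k1
    linarith [(abs_le.1 k1).1]

end Vale.Agent.P090
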