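import Mathlib

namespace Vale.Agent.P090

variable (M : Type) [MetricSpace M] (o : M)

/-- Real Lipschitz functions on `M` vanishing at `o`, as a linear subspace. -/
def lipSub : Submodule ℝ (M → ℝ) where
  carrier := {f | f o = 0 ∧ ∃ K : ℝ, 0 ≤ K ∧ ∀ x y, |f x - f y| ≤ K * dist x y}
  add_mem' := by
    rintro f g ⟨hf, K, hK, h⟩ ⟨hg, L, hL, h'⟩
    refine ⟨by simp [hf, hg], K + L, add_nonneg hK hL, fun x y => ?_⟩
    have := abs_add_le (f x - f y) (g x - g y)
    have e : (f + g) x - (f + g) y = f x - f y + (g x - g y) := by simp only [Pi.add_apply]; ring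
    rw [e, add_mul]
    linarith [h x y, h' x y]
  zero_mem' := ⟨rfl, 0, le_rfl, fun x y => by simp⟩
  smul_mem' := by
    rintro c f ⟨hf, K, hK, h⟩
    refine ⟨by simp [hf], |c| * K, mul_nonneg (abs_nonneg c) hK, fun x y => ?_⟩
    have e : (c • f) x - (c • f) y = c * (f x - f y) := by simp only [Pi.smul_apply, smul_eq_mul]; ring
    rw [e, abs_mul, mul_assoc]
    exact mul_le_mul_of_nonneg_left (h x y) (abs_nonneg c)

/-- The space `Lip_0(M)`. -/
def Lip0 : Type := lipSub M o

instance : AddCommGroup (Lip0 M o) := inferInstanceAs (AddCommGroup (lipSub M o))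

instance : Module ℝ (Lip0 M o) := inferInstanceAs (Module ℝ (lipSub M o))

variable {M}

/-- The (best) Lipschitz constant of `f`. -/
noncomputable def lipConst (f : M → ℝ) : ℝ :=
  sInf {K : ℝ | 0 ≤ K ∧ ∀ x y, |f x - f y| ≤ K * dist x y}

theorem lipConst_nonneg (f : M → ℝ) : 0 ≤ lipConst f :=
  Real.sInf_nonneg fun _ hK => hK.1

theorem lipConst_le {f : M → ℝ} {K : ℝ} (hK : 0 ≤ K) (h : ∀ x y, |f x - f y| ≤ K * dist x y) :
    lipConst f ≤ K :=
  csInf_le ⟨0, fun _ hL => hL.1⟩ ⟨hK, h⟩

variable {o}

theorem le_lipConst (f : Lip0 M o) (x y : M) : |f.1 x - f.1 y| ≤ lipConst f.1 * dist x y := by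
  rcases eq_or_ne x y with rfl | hxy
  · simp
  · have hd : 0 < dist x y := dist_pos.2 hxy
    rw [← div_le_iff₀ hd]
    exact le_csInf f.2.2 fun K hK => (div_le_iff₀ hd).2 (hK.2 x y)

theorem lipConst_smul_le (c : ℝ) (f : Lip0 M o) : lipConst (c • f).1 ≤ |c| * lipConst f.1 := by
  refine lipConst_le (mul_nonneg (abs_nonneg c) (lipConst_nonneg _)) fun x y => ?_
  have e : (c • f).1 x - (c • f).1 y = c * (f.1 x - f.1 y) := by
    change c * f.1 x - c * f.1 y = _
    ring
  rw [e, abs_mul, mul_assoc]
  exact mul_le_mul_of_nonneg_left (le_lipConst f x y) (abs_nonneg c)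

variable (M o)

/-- `Lip_0(M)` is normed by the Lipschitz constant. -/
noncomputable instance : NormedAddCommGroup (Lip0 M o) :=
  AddGroupNorm.toNormedAddCommGroup
    { toFun := fun f => lipConst f.1
      map_zero' := le_antisymm (lipConst_le le_rfl fun x y => by
        change |(0 : ℝ) - 0| ≤ _
        simp) (lipConst_nonneg _)
      add_le' := fun f g => by
        refine lipConst_le (add_nonneg (lipConst_nonneg _) (lipConst_nonneg _)) fun x y => ?_
        have e : (f + g).1 x - (f + g).1 y = f.1 x - f.1 y + (g.1 x - g.1 y) := by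
          change f.1 x + g.1 x - (f.1 y + g.1 y) = _
          ring
        have := abs_add_le (f.1 x - f.1 y) (g.1 x - g.1 y)
        rw [e, add_mul]
        linarith [le_lipConst f x y, le_lipConst g x y]
      neg' := fun f => by
        have h1 := lipConst_smul_le (-1) f
        have h2 := lipConst_smul_le (-1) (-f)
        simp only [neg_smul, one_smul, neg_neg, abs_neg, abs_one, one_mul] at h1 h2
        exact le_antisymm h1 h2
      eq_zero_of_map_eq_zero' := fun f hf => by
        refine Subtype.ext (funext fun x => ?_)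
        have h := le_lipConst f x o
        have hf' : lipConst f.1 = 0 := hf
        rw [hf', f.2.1, zero_mul, sub_zero] at h
        exact abs_nonpos_iff.1 h }

noncomputable instance : NormedSpace ℝ (Lip0 M o) where
  norm_smul_le c f := lipConst_smul_le c f

/-- Evaluation at `x`, as an element of the dual of `Lip_0(M)`. -/
noncomputable def delta (x : M) : StrongDual ℝ (Lip0 M o) :=
  LinearMap.mkContinuous
    { toFun := fun f => f.1 x, map_add' := fun _ _ => rfl, map_smul' := fun _ _ => rfl }
    (dist x o) fun f => by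
      have h := le_lipConst f x o
      rw [f.2.1, sub_zero, mul_comm] at h
      exact h

/-- The Lipschitz-free space: the closed linear span of the evaluations in `Lip_0(M)^*`. -/
noncomputable def Free : Submodule ℝ (StrongDual ℝ (Lip0 M o)) :=
  (Submodule.span ℝ (Set.range (delta M o))).topologicalClosure

/-- The bounded approximation property. -/
def BAP (X : Type) [NormedAddCommGroup X] [NormedSpace ℝ X] : Prop :=
  ∃ lam : ℝ, 1 ≤ lam ∧ ∀ C : Set X, IsCompact C → ∀ ε : ℝ, 0 < ε →
    ∃ T : X →L[ℝ] X, FiniteDimensional ℝ (LinearMap.range T.toLinearMap) ∧ ‖T‖ ≤ lam ∧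
      ∀ u ∈ C, ‖T u - u‖ < ε

end Vale.Agent.P090
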