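import Mathlib

namespace Vale.Agent.P090

open Finset

variable {N : ℕ} [NeZero N]

noncomputable def ch (ξ a : ZMod N × ZMod N) : ℂ := ZMod.stdAddChar (ξ.1 * a.1 + ξ.2 * a.2)

theorem ch_add (ξ a b : ZMod N × ZMod N) : ch ξ (a + b) = ch ξ a * ch ξ b := by
  simp only [ch, ← AddChar.map_add_eq_mul, Prod.fst_add, Prod.snd_add]
  congr 1
  ring

theorem ch_zero_left (a : ZMod N × ZMod N) : ch 0 a = 1 := by simp [ch]

theorem norm_ch (ξ a : ZMod N × ZMod N) : ‖ch ξ a‖ = 1 := by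
  rw [ch, ZMod.stdAddChar_apply]
  exact Circle.norm_coe _

theorem conj_ch (ξ a : ZMod N × ZMod N) : (starRingEnd ℂ) (ch ξ a) = ch ξ (-a) := by
  have h1 : ch ξ a * ch ξ (-a) = 1 := by rw [← ch_add]; simp [ch]
  have h2 : ch ξ a * (starRingEnd ℂ) (ch ξ a) = 1 := by
    rw [Complex.mul_conj, Complex.normSq_eq_norm_sq, norm_ch]; simp
  have h3 : ch ξ a ≠ 0 := by
    intro h
    rw [h] at h1
    simp at h1
  exact mul_left_cancel₀ h3 (h2.trans h1.symm)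

theorem sum_ch (a : ZMod N × ZMod N) :
    ∑ ξ : ZMod N × ZMod N, ch ξ a = if a = 0 then (N : ℂ) ^ 2 else 0 := by
  have h := fun b : ZMod N => AddChar.sum_mulShift b (ZMod.isPrimitive_stdAddChar N)
  simp only [ch, AddChar.map_add_eq_mul, Fintype.sum_prod_type]
  rw [← Finset.sum_mul_sum, h, h, ZMod.card]
  obtain ⟨a, b⟩ := a
  by_cases ha : a = 0 <;> by_cases hb : b = 0 <;> simp [ha, hb, sq]

theorem parseval (f : ZMod N × ZMod N → ℝ) :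
    ∑ ξ : ZMod N × ZMod N, ‖∑ a, ch ξ a * f a‖ ^ 2 = (N : ℝ) ^ 2 * ∑ a, f a ^ 2 := by
  have h : ∀ ξ : ZMod N × ZMod N, ((‖∑ a, ch ξ a * f a‖ ^ 2 : ℝ) : ℂ)
      = ∑ a, ∑ b, ch ξ (a - b) * (f a * f b) := by
    intro ξ
    rw [← Complex.normSq_eq_norm_sq, ← Complex.mul_conj, map_sum, Finset.sum_mul_sum]
    refine sum_congr rfl fun a _ => sum_congr rfl fun b _ => ?_
    rw [map_mul, conj_ch, Complex.conj_ofReal, sub_eq_add_neg, ch_add]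
    ring
  apply Complex.ofReal_injective
  rw [Complex.ofReal_sum]
  simp only [h]
  rw [Finset.sum_comm]
  push_cast
  rw [Finset.mul_sum]
  refine sum_congr rfl fun a _ => ?_
  rw [Finset.sum_comm]
  simp only [← Finset.sum_mul, sum_ch, sub_eq_zero, ite_mul, zero_mul]
  rw [Finset.sum_ite_eq]
  simp [sq]

theorem two_le_norm_char {x : ZMod N} (hx : (N : ℤ) ≤ 4 * |x.valMinAbs|) :
    2 ≤ ‖ZMod.stdAddChar x - 1‖ ^ 2 := by
  have hN : (0 : ℝ) < N := by exact_mod_cast NeZero.pos N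
  have h1 : ZMod.stdAddChar x
      = Complex.exp ((2 * Real.pi * (x.valMinAbs : ℝ) / N : ℝ) * Complex.I) := by
    conv_lhs => rw [← x.coe_valMinAbs, ZMod.stdAddChar_coe]
    congr 1
    push_cast
    ring
  set θ : ℝ := 2 * Real.pi * (x.valMinAbs : ℝ) / N with hθ
  have h2 : Real.cos θ ≤ 0 := by
    rw [← Real.cos_abs]
    have h3 : |θ| = 2 * Real.pi * |(x.valMinAbs : ℝ)| / N := by
      rw [hθ, abs_div, abs_mul, abs_of_pos hN, abs_of_pos Real.two_pi_pos]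
    have h4 : (N : ℝ) ≤ 4 * |(x.valMinAbs : ℝ)| := by exact_mod_cast hx
    have h5 : |(x.valMinAbs : ℝ)| * 2 ≤ N := by
      have h6 := x.valMinAbs_mem_Ioc
      have h7 : |x.valMinAbs| * 2 ≤ N := by
        rcases abs_cases x.valMinAbs with h | h <;> linarith [h6.1, h6.2, h.1]
      exact_mod_cast h7
    have hpi := Real.pi_pos
    rw [h3]
    refine Real.cos_nonpos_of_pi_div_two_le_of_le ?_ ?_
    · rw [le_div_iff₀ hN]
      nlinarith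
    · rw [div_le_iff₀ hN]
      nlinarith
  rw [h1, ← Complex.normSq_eq_norm_sq, Complex.normSq_apply]
  simp only [Complex.sub_re, Complex.sub_im, Complex.exp_ofReal_mul_I_re,
    Complex.exp_ofReal_mul_I_im, Complex.one_re, Complex.one_im]
  nlinarith [Real.sin_sq_add_cos_sq θ]

theorem valMinAbs_add_of_small {x y : ZMod N} (hx : 4 * |x.valMinAbs| < N)
    (hy : 4 * |y.valMinAbs| < N) : (x + y).valMinAbs = x.valMinAbs + y.valMinAbs := by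
  refine (ZMod.valMinAbs_spec _ _).2 ⟨by simp, ?_, ?_⟩
  · linarith [neg_abs_le x.valMinAbs, neg_abs_le y.valMinAbs]
  · linarith [le_abs_self x.valMinAbs, le_abs_self y.valMinAbs]

theorem valMinAbs_sub_of_small {x y : ZMod N} (hx : 4 * |x.valMinAbs| < N)
    (hy : 4 * |y.valMinAbs| < N) : (x - y).valMinAbs = x.valMinAbs - y.valMinAbs := by
  refine (ZMod.valMinAbs_spec _ _).2 ⟨by simp, ?_, ?_⟩
  · linarith [neg_abs_le x.valMinAbs, le_abs_self y.valMinAbs]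
  · linarith [le_abs_self x.valMinAbs, neg_abs_le y.valMinAbs]

theorem quad {A : Type} [Fintype A] [DecidableEq A] (μ ρ₁ ρ₂ : A → ℝ) (hμ : ∀ a, 0 ≤ μ a)
    (Q Big : Finset A) (φ₁ φ₂ : A → A) (h₁ : Function.Injective φ₁)
    (h₂ : Function.Injective φ₂) (hq₁ : ∀ a ∈ Q, φ₁ a ∈ Q ∪ Big) (hq₂ : ∀ a ∈ Q, φ₂ a ∈ Q ∪ Big)
    (hd : ∀ a ∈ Q, ∀ b ∈ Q, φ₁ a ≠ φ₂ b) {E : ℝ} (hρ₁ : ∀ a, 0 ≤ ρ₁ a) (hρ₂ : ∀ a, 0 ≤ ρ₂ a)
    (hE₁ : ∑ a, ρ₁ a ≤ E) (hE₂ : ∑ a, ρ₂ a ≤ E)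
    (hm₁ : ∀ a, μ a ≤ 3 / 2 * μ (φ₁ a) + 3 * ρ₁ a) (hm₂ : ∀ a, μ a ≤ 3 / 2 * μ (φ₂ a) + 3 * ρ₂ a) :
    ∑ a ∈ Q, μ a ≤ 3 * ∑ a ∈ Big, μ a + 12 * E := by
  have k : ∀ (φ : A → A) (ρ : A → ℝ), Function.Injective φ → (∀ a, 0 ≤ ρ a) → ∑ a, ρ a ≤ E →
      (∀ a, μ a ≤ 3 / 2 * μ (φ a) + 3 * ρ a) →
      ∑ a ∈ Q, μ a ≤ 3 / 2 * ∑ a ∈ Q.image φ, μ a + 3 * E := by
    intro φ ρ hφ hρ hE hm
    rw [sum_image hφ.injOn]
    have e1 : ∑ a ∈ Q, ρ a ≤ ∑ a, ρ a :=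
      sum_le_sum_of_subset_of_nonneg (subset_univ _) fun a _ _ => hρ a
    have e2 : ∑ a ∈ Q, μ a ≤ ∑ a ∈ Q, (3 / 2 * μ (φ a) + 3 * ρ a) := sum_le_sum fun a _ => hm a
    rw [sum_add_distrib, ← mul_sum, ← mul_sum] at e2
    linarith
  have k₁ := k φ₁ ρ₁ h₁ hρ₁ hE₁ hm₁
  have k₂ := k φ₂ ρ₂ h₂ hρ₂ hE₂ hm₂
  have hdis : Disjoint (Q.image φ₁) (Q.image φ₂) := by
    rw [Finset.disjoint_left]
    intro x hx hx'
    obtain ⟨a, ha, rfl⟩ := mem_image.1 hx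
    obtain ⟨b, hb, hab⟩ := mem_image.1 hx'
    exact hd a ha b hb hab.symm
  have k₃ : ∑ a ∈ Q.image φ₁ ∪ Q.image φ₂, μ a ≤ ∑ a ∈ Q ∪ Big, μ a := by
    refine sum_le_sum_of_subset_of_nonneg ?_ fun a _ _ => hμ a
    intro x hx
    rcases mem_union.1 hx with hx | hx
    · obtain ⟨a, ha, rfl⟩ := mem_image.1 hx
      exact hq₁ a ha
    · obtain ⟨a, ha, rfl⟩ := mem_image.1 hx
      exact hq₂ a ha
  rw [sum_union hdis] at k₃
  have k₄ : ∑ a ∈ Q ∪ Big, μ a ≤ ∑ a ∈ Q, μ a + ∑ a ∈ Big, μ a := by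
    rw [← sum_union_inter]
    linarith [sum_nonneg (s := Q ∩ Big) fun a _ => hμ a]
  linarith

end Vale.Agent.P090
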