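import Vale.Agent.P090.Graph

namespace Vale.Agent.P090

open Finset Pointwise

open Classical in
noncomputable def cnt (L : ℕ) (p : ℕ → Prop) : ℕ := ((range L).filter p).card

theorem cnt_le (L : ℕ) (p : ℕ → Prop) : cnt L p ≤ L := by
  classical
  exact (card_filter_le _ _).trans (card_range L).le

theorem cnt_all (L : ℕ) {p : ℕ → Prop} (h : ∀ r, p r) : cnt L p = L := by
  classical
  rw [cnt, filter_true_of_mem fun r _ => h r, card_range]

theorem cnt_ne_zero {L : ℕ} {p : ℕ → Prop} (h : cnt L p ≠ 0) : ∃ r < L, p r := by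
  classical
  obtain ⟨r, hr⟩ := card_ne_zero.1 h
  exact ⟨r, mem_range.1 (mem_filter.1 hr).1, (mem_filter.1 hr).2⟩

theorem cnt_shift (L j : ℕ) {p p' : ℕ → Prop} (h : ∀ r, p r → p' (r + j)) :
    cnt L p ≤ cnt L p' + j := by
  classical
  have h1 : ((range L).filter p).card ≤ (((range L).filter p') ∪ Ico L (L + j)).card := by
    refine card_le_card_of_injOn (fun r => r + j) ?_ fun a _ b _ hab => by simpa using hab
    intro r hr
    have hr' := mem_filter.1 (mem_coe.1 hr)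
    have h2 := mem_range.1 hr'.1
    have h3 := h r hr'.2
    simp only [coe_union, Set.mem_union, mem_coe, mem_filter, mem_range, mem_Ico]
    by_cases h4 : r + j < L
    · exact Or.inl ⟨h4, h3⟩
    · exact Or.inr ⟨by omega, by omega⟩
  have h2 := card_union_le ((range L).filter p') (Ico L (L + j))
  rw [Nat.card_Ico, Nat.add_sub_cancel_left] at h2
  simp only [cnt]
  convert h1.trans h2

variable {G : Type} [Group G] [DecidableEq G] (S : Finset G)

noncomputable def rc (L : ℕ) (P : G → Prop) : ℕ := cnt L fun r => ∃ γ ∈ S ^ r, P γ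

variable {S}

theorem rc_right (L : ℕ) {j : ℕ} {g : G} (hg : g ∈ S ^ j) {P P' : G → Prop}
    (h : ∀ γ, P γ → P' (γ * g)) : rc S L P ≤ rc S L P' + j := by
  refine cnt_shift L j ?_
  rintro r ⟨γ, hγ, hP⟩
  exact ⟨γ * g, by rw [pow_add]; exact mul_mem_mul hγ hg, h γ hP⟩

theorem rc_left (L : ℕ) {j : ℕ} {g : G} (hg : g ∈ S ^ j) {P P' : G → Prop}
    (h : ∀ γ, P γ → P' (g * γ)) : rc S L P ≤ rc S L P' + j := by
  refine cnt_shift L j ?_
  rintro r ⟨γ, hγ, hP⟩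
  exact ⟨g * γ, by rw [add_comm, pow_add]; exact mul_mem_mul hg hγ, h γ hP⟩

theorem rc_one (h1 : (1 : G) ∈ S) (L : ℕ) {P : G → Prop} (h : P 1) : rc S L P = L :=
  cnt_all L fun _ => ⟨1, one_mem_pow h1, h⟩

theorem rc_ne_zero (h1 : (1 : G) ∈ S) {L : ℕ} {P : G → Prop} (h : rc S L P ≠ 0) :
    ∃ γ ∈ S ^ L, P γ := by
  obtain ⟨r, hr, γ, hγ, hP⟩ := cnt_ne_zero h
  exact ⟨γ, pow_subset_pow_right h1 hr.le hγ, hP⟩

theorem inv_mem_pow (hi : ∀ s ∈ S, s⁻¹ ∈ S) {j : ℕ} {g : G} (hg : g ∈ S ^ j) : g⁻¹ ∈ S ^ j := by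
  have h : S⁻¹ = S := by
    ext s
    rw [mem_inv']
    exact ⟨fun h => by simpa using hi _ h, hi s⟩
  rw [← h, inv_pow]
  exact inv_mem_inv hg

theorem cut_lemma {c c' σ σ' b : ℝ} (hc : 0 ≤ c) (hc' : 0 ≤ c') (h : |c - c'| ≤ b)
    (hσ : |σ| ≤ 1) (hσ' : |σ'| ≤ 1) (he : c ≠ 0 → c' ≠ 0 → σ = σ') : |c * σ - c' * σ'| ≤ b := by
  by_cases h0 : c = 0
  · subst h0
    rw [zero_sub, abs_neg] at h
    rw [zero_mul, zero_sub, abs_neg, abs_mul]
    exact (mul_le_of_le_one_right (abs_nonneg _) hσ').trans h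
  by_cases h0' : c' = 0
  · subst h0'
    rw [sub_zero] at h
    rw [zero_mul, sub_zero, abs_mul]
    exact (mul_le_of_le_one_right (abs_nonneg _) hσ).trans h
  rw [← he h0 h0', ← sub_mul, abs_mul]
  exact (mul_le_of_le_one_right (abs_nonneg _) hσ).trans h

variable {T X : Type} [MulAction G T] [MulAction G X]

variable (S) in
noncomputable def cw (L : ℕ) (t' t : T) : ℝ := (rc S L fun γ => γ • t' = t : ℕ) / L

open Classical in
variable (S) in
noncomputable def gam (L : ℕ) (t' t : T) : G :=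
  if h : ∃ γ ∈ S ^ L, γ • t' = t then h.choose else 1

variable (S) in
noncomputable def Ft (L : ℕ) (t : T) (σ : X → ℝ) (v : T × X) : ℝ :=
  cw S L v.1 t * σ (gam S L v.1 t • v.2)

theorem cw_nonneg (L : ℕ) (t' t : T) : 0 ≤ cw S L t' t := by
  unfold cw
  positivity

theorem cw_le_one (L : ℕ) (t' t : T) : cw S L t' t ≤ 1 :=
  div_le_one_of_le₀ (by exact_mod_cast cnt_le _ _) (Nat.cast_nonneg _)

theorem cw_self (h1 : (1 : G) ∈ S) {L : ℕ} (hL : 0 < L) (t : T) : cw S L t t = 1 := by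
  rw [cw, rc_one h1 L (P := fun γ => γ • t = t) (one_smul _ _), div_self]
  exact_mod_cast hL.ne'

theorem gam_mem (h1 : (1 : G) ∈ S) (L : ℕ) (t' t : T) : gam S L t' t ∈ S ^ L := by
  unfold gam
  split_ifs with h
  · exact h.choose_spec.1
  · exact one_mem_pow h1

theorem gam_spec (h1 : (1 : G) ∈ S) {L : ℕ} {t' t : T} (h : cw S L t' t ≠ 0) :
    gam S L t' t • t' = t := by
  have h2 : (rc S L fun γ => γ • t' = t) ≠ 0 := by
    intro h2
    rw [cw, h2] at h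
    simp at h
  have h3 := rc_ne_zero h1 h2
  rw [gam, dif_pos h3]
  exact h3.choose_spec.2

theorem nat_div_abs {a b L : ℕ} (h1 : a ≤ b + 1) (h2 : b ≤ a + 1) :
    |(a : ℝ) / L - (b : ℝ) / L| ≤ 1 / L := by
  rw [← sub_div, abs_div, Nat.abs_cast]
  refine div_le_div_of_nonneg_right ?_ (Nat.cast_nonneg _)
  have h1' : (a : ℝ) ≤ b + 1 := by exact_mod_cast h1
  have h2' : (b : ℝ) ≤ a + 1 := by exact_mod_cast h2
  rw [abs_le]
  constructor <;> linarith

theorem Ft_bound (L : ℕ) (t : T) {σ : X → ℝ} (hσ : ∀ x, |σ x| ≤ 1) (v : T × X) :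
    |Ft S L t σ v| ≤ 1 := by
  rw [Ft, abs_mul, abs_of_nonneg (cw_nonneg _ _ _)]
  exact mul_le_one₀ (cw_le_one _ _ _) (abs_nonneg _) (hσ _)

section

variable (h1 : (1 : G) ∈ S) (hi : ∀ s ∈ S, s⁻¹ ∈ S) {L : ℕ}
  (hfree : ∀ γ ∈ S ^ (L + 1), ∀ γ' ∈ S ^ (L + 1), ∀ t : T, γ • t = γ' • t → γ = γ')

include h1 hi hfree

theorem Ft_edge (t : T) {σ : X → ℝ} (hσ : ∀ x, |σ x| ≤ 1) (v : T × X) {s : G} (hs : s ∈ S) :
    |Ft S L t σ v - Ft S L t σ (s • v)| ≤ 1 / L := by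
  obtain ⟨t', x⟩ := v
  refine cut_lemma (cw_nonneg _ _ _) (cw_nonneg _ _ _) (nat_div_abs ?_ ?_) (hσ _) (hσ _) ?_
  · refine rc_right L (g := s⁻¹) (by rw [pow_one]; exact hi s hs) fun γ hγ => ?_
    simpa [mul_smul] using hγ
  · refine rc_right L (g := s) (by rw [pow_one]; exact hs) fun γ hγ => ?_
    simpa [mul_smul] using hγ
  · intro a b
    have e1 := gam_spec h1 a
    have e2 := gam_spec h1 b
    simp only [Prod.smul_mk] at e1 e2 ⊢
    have e3 : gam S L t' t = gam S L (s • t') t * s := by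
      refine hfree _ (pow_subset_pow_right h1 (Nat.le_succ L) (gam_mem h1 L _ _)) _
        (by rw [pow_succ]; exact mul_mem_mul (gam_mem h1 L _ _) hs) t' ?_
      rw [mul_smul, e1, e2]
    rw [e3, mul_smul]

theorem Ft_shift (t : T) {σ : X → ℝ} (hσ : ∀ x, |σ x| ≤ 1) (v : T × X) {s : G} (hs : s ∈ S) :
    |Ft S L (s • t) (fun x => σ (s⁻¹ • x)) v - Ft S L t σ v| ≤ 1 / L := by
  obtain ⟨t', x⟩ := v
  refine cut_lemma (cw_nonneg _ _ _) (cw_nonneg _ _ _) (nat_div_abs ?_ ?_) (hσ _) (hσ _) ?_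
  · refine rc_left L (g := s⁻¹) (by rw [pow_one]; exact hi s hs) fun γ hγ => ?_
    rw [mul_smul, hγ, inv_smul_smul]
  · refine rc_left L (g := s) (by rw [pow_one]; exact hs) fun γ hγ => ?_
    rw [mul_smul, hγ]
  · intro a b
    have e1 := gam_spec h1 a
    have e2 := gam_spec h1 b
    simp only at e1 e2 ⊢
    have e3 : gam S L t' t = s⁻¹ * gam S L t' (s • t) := by
      refine hfree _ (pow_subset_pow_right h1 (Nat.le_succ L) (gam_mem h1 L _ _)) _
        (by rw [pow_succ']; exact mul_mem_mul (hi s hs) (gam_mem h1 L _ _)) t' ?_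
      rw [mul_smul, e1, e2, inv_smul_smul]
    rw [e3, mul_smul]

end

end Vale.Agent.P090
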