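import Vale.Agent.P090.Reduce

namespace Vale.Agent.P090

open Finset

section Edge

variable {V : Type} (E : V → V → ℝ → Prop) (o : V)

def EdgeLip (c : ℝ) (F : V → ℝ) : Prop := ∀ u v l, E u v l → |F u - F v| ≤ c * l

def gset (u v : V) : Set ℝ := {r | ∃ F : V → ℝ, EdgeLip E 1 F ∧ r = F u - F v}

noncomputable def gdist (u v : V) : ℝ := sSup (gset E u v)

variable {E o}

theorem gset_nonempty (hE : ∀ u v l, E u v l → 1 ≤ l) (u v : V) : (gset E u v).Nonempty :=
  ⟨0, fun _ => 0, fun a b l h => by have := hE a b l h; simp; linarith, by simp⟩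

theorem gset_bdd (ho : ∀ u, u ≠ o → ∃ l, E o u l) (u v : V) : BddAbove (gset E u v) := by
  have h : ∀ u, ∃ l, ∀ F : V → ℝ, EdgeLip E 1 F → |F o - F u| ≤ l := by
    intro u
    rcases eq_or_ne u o with rfl | hu
    · exact ⟨0, fun F _ => by simp⟩
    · obtain ⟨l, hl⟩ := ho u hu
      exact ⟨l, fun F hF => by simpa using hF _ _ _ hl⟩
  obtain ⟨a, ha⟩ := h u
  obtain ⟨b, hb⟩ := h v
  refine ⟨a + b, ?_⟩
  rintro r ⟨F, hF, rfl⟩
  have h1 := abs_le.1 (ha F hF)
  have h2 := abs_le.1 (hb F hF)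
  linarith [h1.1, h2.2]

theorem le_gdist (ho : ∀ u, u ≠ o → ∃ l, E o u l) {F : V → ℝ} (hF : EdgeLip E 1 F) (u v : V) :
    F u - F v ≤ gdist E u v :=
  le_csSup (gset_bdd ho u v) ⟨F, hF, rfl⟩

theorem gdist_le (hE : ∀ u v l, E u v l → 1 ≤ l) {u v : V} {r : ℝ}
    (h : ∀ F : V → ℝ, EdgeLip E 1 F → F u - F v ≤ r) : gdist E u v ≤ r :=
  csSup_le (gset_nonempty hE u v) (by rintro _ ⟨F, hF, rfl⟩; exact h F hF)

theorem EdgeLip.neg {c : ℝ} {F : V → ℝ} (hF : EdgeLip E c F) : EdgeLip E c fun u => -F u := by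
  intro u v l h
  have := hF u v l h
  rwa [neg_sub_neg, abs_sub_comm]

theorem one_le_gdist (hE : ∀ u v l, E u v l → 1 ≤ l) (ho : ∀ u, u ≠ o → ∃ l, E o u l)
    {u v : V} (huv : u ≠ v) : 1 ≤ gdist E u v := by
  classical
  have hF : EdgeLip E 1 fun x => if x = u then (1 : ℝ) else 0 := by
    intro a b l h
    have := hE a b l h
    by_cases ha : a = u <;> by_cases hb : b = u <;> simp [ha, hb] <;> linarith
  simpa [huv.symm] using le_gdist ho hF u v

@[reducible] noncomputable def gmetric (hE : ∀ u v l, E u v l → 1 ≤ l) (ho : ∀ u, u ≠ o → ∃ l, E o u l) :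
    MetricSpace V where
  dist := gdist E
  dist_self u := le_antisymm (gdist_le hE fun F _ => by simp) (by
    have := le_gdist ho (F := fun _ => 0)
      (fun a b l h => by have := hE a b l h; simp; linarith) u u
    simpa using this)
  dist_comm u v := le_antisymm
    (gdist_le hE fun F hF => by have := le_gdist ho hF.neg v u; linarith)
    (gdist_le hE fun F hF => by have := le_gdist ho hF.neg u v; linarith)
  dist_triangle u v w := gdist_le hE fun F hF => by
    have h1 := le_gdist ho hF u v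
    have h2 := le_gdist ho hF v w
    linarith
  eq_of_dist_eq_zero := by
    intro u v h
    by_contra huv
    have := one_le_gdist hE ho huv
    change gdist E u v = 0 at h
    linarith

theorem abs_le_gdist (ho : ∀ u, u ≠ o → ∃ l, E o u l) {F : V → ℝ} {c : ℝ} (hc : 0 < c)
    (hF : EdgeLip E c F) (u v : V) (hsymm : gdist E v u = gdist E u v) :
    |F u - F v| ≤ c * gdist E u v := by
  have hG : EdgeLip E 1 fun x => F x / c := by
    intro a b l h
    rw [← sub_div, abs_div, abs_of_pos hc, div_le_iff₀ hc]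
    have := hF a b l h
    linarith
  have h1 := le_gdist ho hG u v
  have h2 := le_gdist ho hG v u
  rw [hsymm] at h2
  rw [← sub_div, div_le_iff₀ hc] at h1 h2
  rw [abs_le]
  constructor <;> linarith

end Edge

def Good {V : Type} (E : V → V → ℝ → Prop) (D lam : ℝ) (A : Finset V) : Prop :=
  ∃ (B : Finset V) (ν : V → V → ℝ), ∀ (F : V → ℝ) (c : ℝ), 0 < c → EdgeLip E c F →
    (∀ u, |F u| ≤ c * D) →
      (∀ u v l, E u v l → |∑ b ∈ B, ν u b * F b - ∑ b ∈ B, ν v b * F b| ≤ lam * c * l) ∧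
      ∀ a ∈ A, |∑ b ∈ B, ν a b * F b - F a| ≤ c

def GE {V : ℕ → Type} (E : ∀ k, V k → V k → ℝ → Prop) (D : ℕ → ℝ)
    (u v : Option (Σ k, V k)) (l : ℝ) : Prop :=
  (∃ k a b, E k a b l ∧ u = some ⟨k, a⟩ ∧ v = some ⟨k, b⟩) ∨
    ∃ k a, u = none ∧ v = some ⟨k, a⟩ ∧ l = D k

theorem exists_not_BAP (V : ℕ → Type) (E : ∀ k, V k → V k → ℝ → Prop) (D : ℕ → ℝ)
    (hE : ∀ k u v l, E k u v l → 1 ≤ l) (hD : ∀ k, 1 ≤ D k)
    (hbad : ∀ k : ℕ, 1 ≤ k → ∃ A, ¬ Good (E k) (D k) k A) :
    ∃ (M : Type) (_ : MetricSpace M) (o : M),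
      (∃ θ : ℝ, 0 < θ ∧ ∀ x y : M, x ≠ y → θ ≤ dist x y) ∧ ¬ BAP (Free M o) := by
  classical
  have hE' : ∀ u v l, GE E D u v l → 1 ≤ l := by
    rintro u v l (⟨k, a, b, h, -, -⟩ | ⟨k, a, -, -, rfl⟩)
    · exact hE k a b l h
    · exact hD k
  have ho : ∀ u : Option (Σ k, V k), u ≠ none → ∃ l, GE E D none u l := by
    rintro (_ | ⟨k, a⟩) h
    · exact absurd rfl h
    · exact ⟨D k, Or.inr ⟨k, a, rfl, rfl, rfl⟩⟩
  let _ : MetricSpace (Option (Σ k, V k)) := gmetric hE' ho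
  refine ⟨Option (Σ k, V k), inferInstance, none, ⟨1, one_pos, fun x y h => one_le_gdist hE' ho h⟩,
    fun h => ?_⟩
  obtain ⟨lam, hlam, h⟩ := reduce h
  obtain ⟨k, hk⟩ := exists_nat_ge lam
  have hk1 : 1 ≤ k := by exact_mod_cast hlam.trans hk
  obtain ⟨A, hA⟩ := hbad k hk1
  let ι : V k → Option (Σ k, V k) := fun a => some ⟨k, a⟩
  have hι : Function.Injective ι := by
    intro a b hab
    simpa [ι] using hab
  obtain ⟨B, ν, h⟩ := h (A.image ι)
  refine hA ⟨B.preimage ι hι.injOn, fun u b => ν (ι u) (ι b), fun F c hc hF hFb => ?_⟩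
  let G : Option (Σ k, V k) → ℝ := Function.extend ι F 0
  have hG1 : ∀ a, G (ι a) = F a := fun a => hι.extend_apply _ _ a
  have hG2 : ∀ u, (¬ ∃ a, ι a = u) → G u = 0 := fun u hu => Function.extend_apply' _ _ _ hu
  have hG3 : ∀ (j : ℕ) (a : V j), j ≠ k → G (some ⟨j, a⟩) = 0 := by
    intro j a hj
    refine hG2 _ ?_
    rintro ⟨b, hb⟩
    simp only [ι, Option.some.injEq, Sigma.mk.injEq] at hb
    exact hj hb.1.symm
  have hG0 : G none = 0 := hG2 _ (by rintro ⟨b, hb⟩; simp [ι] at hb)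
  have hG : EdgeLip (GE E D) c G := by
    rintro u v l (⟨j, a, b, he, rfl, rfl⟩ | ⟨j, a, rfl, rfl, rfl⟩)
    · rcases eq_or_ne j k with rfl | hj
      · have h1 := hG1 a
        have h2 := hG1 b
        simp only [ι] at h1 h2
        rw [h1, h2]
        exact hF a b l he
      · rw [hG3 j a hj, hG3 j b hj]
        have := hE j a b l he
        simp only [sub_self, abs_zero]
        positivity
    · rcases eq_or_ne j k with rfl | hj
      · have h1 := hG1 a
        simp only [ι] at h1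
        rw [h1, hG0, zero_sub, abs_neg]
        exact hFb a
      · rw [hG3 j a hj, hG0]
        have := hD j
        simp only [sub_self, abs_zero]
        positivity
  obtain ⟨h1, h2⟩ := h G c hc.le hG0 fun x y => abs_le_gdist ho hc hG x y (dist_comm y x)
  have hs : ∀ u, ∑ b ∈ B.preimage ι hι.injOn, ν u (ι b) * F b = ∑ b ∈ B, ν u b * G b := by
    intro u
    rw [← Finset.sum_preimage ι B hι.injOn (fun b => ν u b * G b)]
    · exact sum_congr rfl fun b _ => by rw [hG1]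
    · intro x _ hx
      rw [hG2 x hx, mul_zero]
  refine ⟨fun u v l huv => ?_, fun a ha => ?_⟩
  · rw [hs, hs]
    refine (h1 _ _).trans ?_
    have h3 : dist (ι u) (ι v) ≤ l := by
      refine gdist_le hE' fun F hF => ?_
      have := hF _ _ l (Or.inl ⟨k, u, v, huv, rfl, rfl⟩)
      rw [one_mul] at this
      exact (le_abs_self _).trans this
    exact mul_le_mul (mul_le_mul_of_nonneg_right hk hc.le) h3 dist_nonneg (by positivity)
  · rw [hs, ← hG1]
    exact h2 _ (mem_image_of_mem ι ha)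

end Vale.Agent.P090
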