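import Vale.Agent.P090.Fourier

namespace Vale.Agent.P090

open Finset

variable {N : ℕ} [NeZero N] {Z : Type} [Fintype Z] (τ : ZMod N × ZMod N → Equiv.Perm Z)

noncomputable def FF (h : Z → ℝ) (ξ : ZMod N × ZMod N) (z : Z) : ℂ := ∑ a, ch ξ a * h (τ a z)

noncomputable def mu (h : Z → ℝ) (ξ : ZMod N × ZMod N) : ℝ := ∑ z, ‖FF τ h ξ z‖ ^ 2

theorem mu_nonneg (h : Z → ℝ) (ξ : ZMod N × ZMod N) : 0 ≤ mu τ h ξ :=
  sum_nonneg fun _ _ => sq_nonneg _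

theorem sum_mu (h : Z → ℝ) : ∑ ξ, mu τ h ξ = (N : ℝ) ^ 4 * ∑ z, h z ^ 2 := by
  simp only [mu, FF]
  rw [Finset.sum_comm]
  simp only [parseval (fun a => h (τ a _))]
  rw [← Finset.mul_sum, Finset.sum_comm]
  have e : ∀ a, ∑ z, h (τ a z) ^ 2 = ∑ z, h z ^ 2 := fun a =>
    Equiv.sum_comp (τ a) fun z => h z ^ 2
  simp only [e, sum_const, card_univ, Fintype.card_prod, ZMod.card, nsmul_eq_mul]
  push_cast
  ring

omit [Fintype Z] in
theorem FF_sub (h k : Z → ℝ) (ξ : ZMod N × ZMod N) (z : Z) :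
    FF τ (fun z => h z - k z) ξ z = FF τ h ξ z - FF τ k ξ z := by
  simp only [FF, ← sum_sub_distrib]
  refine sum_congr rfl fun a _ => ?_
  push_cast
  ring

variable {τ}

theorem mu_tr (hτ : ∀ a b z, τ (a + b) z = τ a (τ b z)) (h : Z → ℝ) (b ξ : ZMod N × ZMod N) :
    mu τ (fun z => h (τ b z) - h z) ξ = ‖ch ξ (-b) - 1‖ ^ 2 * mu τ h ξ := by
  simp only [mu, mul_sum]
  refine sum_congr rfl fun z _ => ?_
  have e : FF τ (fun z => h (τ b z)) ξ z = ch ξ (-b) * FF τ h ξ z := by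
    simp only [FF, mul_sum, ← hτ]
    rw [← Equiv.sum_comp (Equiv.addLeft b) fun i => ch ξ (-b) * (ch ξ i * h (τ i z))]
    refine sum_congr rfl fun a _ => ?_
    rw [Equiv.coe_addLeft, ← mul_assoc, ← ch_add, neg_add_cancel_left]
  rw [FF_sub τ (fun z => h (τ b z)) h, e, ← mul_pow, ← norm_mul, sub_mul, one_mul]

theorem sq_ineq (x y : ℂ) : ‖x‖ ^ 2 ≤ 3 / 2 * ‖y‖ ^ 2 + 3 * ‖x - y‖ ^ 2 := by
  have h := norm_add_le y (x - y)
  rw [add_sub_cancel] at h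
  have h2 : ‖x‖ ^ 2 ≤ (‖y‖ + ‖x - y‖) ^ 2 := pow_le_pow_left₀ (norm_nonneg _) h 2
  nlinarith [sq_nonneg (‖y‖ - 2 * ‖x - y‖)]

theorem mu_lin (T : Equiv.Perm Z) (φ : (ZMod N × ZMod N) ≃ (ZMod N × ZMod N))
    (hT : ∀ a z, T (τ a z) = τ (φ a) (T z)) (h : Z → ℝ) (ξ ξ' : ZMod N × ZMod N)
    (hξ : ∀ a, ch ξ' a = ch ξ (φ a)) :
    mu τ h ξ ≤ 3 / 2 * mu τ h ξ' + 3 * mu τ (fun z => h (T z) - h z) ξ' ∧
      mu τ h ξ' ≤ 3 / 2 * mu τ h ξ + 3 * mu τ (fun z => h (T z) - h z) ξ' := by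
  have e : ∀ z, FF τ (fun z => h (T z)) ξ' z = FF τ h ξ (T z) := by
    intro z
    simp only [FF, hT, hξ]
    exact Equiv.sum_comp φ fun a => ch ξ a * h (τ a (T z))
  have e2 : mu τ h ξ = ∑ z, ‖FF τ (fun z => h (T z)) ξ' z‖ ^ 2 := by
    simp only [e, mu]
    exact (Equiv.sum_comp T fun z => ‖FF τ h ξ z‖ ^ 2).symm
  rw [e2]
  simp only [mu, mul_sum, ← sum_add_distrib, FF_sub τ (fun z => h (T z)) h]
  refine ⟨sum_le_sum fun z _ => sq_ineq _ _, sum_le_sum fun z _ => ?_⟩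
  rw [norm_sub_rev]
  exact sq_ineq _ _

def shear1 (N : ℕ) : (ZMod N × ZMod N) ≃ (ZMod N × ZMod N) where
  toFun a := (a.1 + a.2, a.2)
  invFun a := (a.1 - a.2, a.2)
  left_inv a := by simp
  right_inv a := by simp

def shear2 (N : ℕ) : (ZMod N × ZMod N) ≃ (ZMod N × ZMod N) where
  toFun a := (a.1, a.1 + a.2)
  invFun a := (a.1, a.2 - a.1)
  left_inv a := by simp
  right_inv a := by simp

theorem relT (hτ : ∀ a b z, τ (a + b) z = τ a (τ b z)) (T S : Equiv.Perm Z)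
    (hT : ∀ a z, T (τ a z) = τ (a.1 + a.2, a.2) (T z))
    (hS : ∀ a z, S (τ a z) = τ (a.1, a.1 + a.2) (S z)) (h : Z → ℝ) {E : ℝ}
    (h1 : ∑ z, (h (τ (1, 0) z) - h z) ^ 2 ≤ E) (h2 : ∑ z, (h (τ (0, 1) z) - h z) ^ 2 ≤ E)
    (h3 : ∑ z, (h (T z) - h z) ^ 2 ≤ E) (h4 : ∑ z, (h (S z) - h z) ^ 2 ≤ E)
    (b : ZMod N × ZMod N) : ∑ z, (h (τ b z) - h z) ^ 2 ≤ 124 * E := by
  classical
  have hN : (0 : ℝ) < (N : ℝ) ^ 4 := by
    have : (0 : ℝ) < N := by exact_mod_cast NeZero.pos N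
    positivity
  set μ := mu τ h with hμ
  set E' := (N : ℝ) ^ 4 * E with hE'
  have hμ0 : ∀ ξ, 0 ≤ μ ξ := mu_nonneg τ h
  -- the far region
  let B1 : Finset (ZMod N × ZMod N) := univ.filter fun ξ => (N : ℤ) ≤ 4 * |ξ.1.valMinAbs|
  let B2 : Finset (ZMod N × ZMod N) := univ.filter fun ξ => (N : ℤ) ≤ 4 * |ξ.2.valMinAbs|
  have far : ∀ (B : Finset (ZMod N × ZMod N)) (c : ZMod N × ZMod N),
      ∑ z, (h (τ c z) - h z) ^ 2 ≤ E → (∀ ξ ∈ B, 2 ≤ ‖ch ξ (-c) - 1‖ ^ 2) →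
      2 * ∑ ξ ∈ B, μ ξ ≤ E' := by
    intro B c hc hB
    have e1 := sum_mu τ fun z => h (τ c z) - h z
    have e2 : ∑ ξ ∈ B, mu τ (fun z => h (τ c z) - h z) ξ
        ≤ ∑ ξ, mu τ (fun z => h (τ c z) - h z) ξ :=
      sum_le_sum_of_subset_of_nonneg (subset_univ _) fun a _ _ => mu_nonneg τ _ a
    have e3 : 2 * ∑ ξ ∈ B, μ ξ ≤ ∑ ξ ∈ B, mu τ (fun z => h (τ c z) - h z) ξ := by
      rw [mul_sum]
      refine sum_le_sum fun ξ hξ => ?_
      rw [mu_tr hτ]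
      exact mul_le_mul_of_nonneg_right (hB ξ hξ) (hμ0 ξ)
    have e4 := mul_le_mul_of_nonneg_left hc hN.le
    linarith
  have conj : ∀ ξ c : ZMod N × ZMod N, ‖ch ξ (-c) - 1‖ = ‖ch ξ c - 1‖ := by
    intro ξ c
    rw [← conj_ch, ← Complex.norm_conj (ch ξ c - 1), map_sub, map_one]
  have f1 := far B1 (1, 0) h1 fun ξ hξ => by
    rw [conj]
    simpa [ch] using two_le_norm_char (mem_filter.1 hξ).2
  have f2 := far B2 (0, 1) h2 fun ξ hξ => by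
    rw [conj]
    simpa [ch] using two_le_norm_char (mem_filter.1 hξ).2
  have hBig : ∑ ξ ∈ B1 ∪ B2, μ ξ ≤ E' := by
    have := sum_union_inter (s₁ := B1) (s₂ := B2) (f := μ)
    linarith [sum_nonneg (s := B1 ∩ B2) fun a _ => hμ0 a]
  -- the two shears
  have hT' := fun ξ : ZMod N × ZMod N => mu_lin T (shear1 N) hT h ξ (shear2 N ξ) fun a => by
    simp only [ch, shear1, shear2, Equiv.coe_fn_mk]
    congr 1
    ring
  have hS' := fun ξ : ZMod N × ZMod N => mu_lin S (shear2 N) hS h ξ (shear1 N ξ) fun a => by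
    simp only [ch, shear1, shear2, Equiv.coe_fn_mk]
    congr 1
    ring
  set ρT := mu τ fun z => h (T z) - h z with hρT
  set ρS := mu τ fun z => h (S z) - h z with hρS
  have sT : ∑ ξ, ρT ξ ≤ E' := by
    rw [hρT, sum_mu]
    exact mul_le_mul_of_nonneg_left h3 hN.le
  have sS : ∑ ξ, ρS ξ ≤ E' := by
    rw [hρS, sum_mu]
    exact mul_le_mul_of_nonneg_left h4 hN.le
  let Q1 : Finset (ZMod N × ZMod N) := univ.filter fun ξ =>
    4 * |ξ.1.valMinAbs| < N ∧ 4 * |ξ.2.valMinAbs| < N ∧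
      ((0 < ξ.1.valMinAbs ∧ 0 ≤ ξ.2.valMinAbs) ∨ (ξ.1.valMinAbs < 0 ∧ ξ.2.valMinAbs ≤ 0))
  let Q2 : Finset (ZMod N × ZMod N) := univ.filter fun ξ =>
    4 * |ξ.1.valMinAbs| < N ∧ 4 * |ξ.2.valMinAbs| < N ∧
      ((ξ.1.valMinAbs ≤ 0 ∧ 0 < ξ.2.valMinAbs) ∨ (0 ≤ ξ.1.valMinAbs ∧ ξ.2.valMinAbs < 0))
  have q1 : ∑ ξ ∈ Q1, μ ξ ≤ 3 * ∑ ξ ∈ B1 ∪ B2, μ ξ + 12 * E' := by
    refine quad μ (fun ξ => ρT (shear2 N ξ)) (fun ξ => ρS (shear1 N ξ)) hμ0 Q1 (B1 ∪ B2)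
      (shear2 N) (shear1 N) (shear2 N).injective (shear1 N).injective ?_ ?_ ?_
      (fun a => mu_nonneg τ _ _) (fun a => mu_nonneg τ _ _)
      ((Equiv.sum_comp (shear2 N) ρT).trans_le sT) ((Equiv.sum_comp (shear1 N) ρS).trans_le sS)
      (fun a => (hT' a).1) (fun a => (hS' a).1)
    · intro a ha
      obtain ⟨k1, k2, k3⟩ := (mem_filter.1 ha).2
      have k4 := valMinAbs_add_of_small k1 k2
      simp only [Q1, B1, B2, mem_union, mem_filter, mem_univ, true_and, shear2, Equiv.coe_fn_mk]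
      omega
    · intro a ha
      obtain ⟨k1, k2, k3⟩ := (mem_filter.1 ha).2
      have k4 := valMinAbs_add_of_small k1 k2
      simp only [Q1, B1, B2, mem_union, mem_filter, mem_univ, true_and, shear1, Equiv.coe_fn_mk]
      omega
    · intro a ha a' ha' hh
      obtain ⟨k1, k2, k3⟩ := (mem_filter.1 ha).2
      have k4 := valMinAbs_add_of_small k1 k2
      obtain ⟨l1, l2, l3⟩ := (mem_filter.1 ha').2
      have l4 := valMinAbs_add_of_small l1 l2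
      simp only [shear1, shear2, Equiv.coe_fn_mk, Prod.mk.injEq] at hh
      have m1 := congrArg ZMod.valMinAbs hh.1
      have m2 := congrArg ZMod.valMinAbs hh.2
      omega
  have q2 : ∑ ξ ∈ Q2, μ ξ ≤ 3 * ∑ ξ ∈ B1 ∪ B2, μ ξ + 12 * E' := by
    refine quad μ ρT ρS hμ0 Q2 (B1 ∪ B2)
      (shear2 N).symm (shear1 N).symm (shear2 N).symm.injective (shear1 N).symm.injective ?_ ?_ ?_
      (fun a => mu_nonneg τ _ _) (fun a => mu_nonneg τ _ _) sT sS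
      (fun a => by simpa using (hT' ((shear2 N).symm a)).2)
      (fun a => by simpa using (hS' ((shear1 N).symm a)).2)
    · intro a ha
      obtain ⟨k1, k2, k3⟩ := (mem_filter.1 ha).2
      have k4 := valMinAbs_sub_of_small k2 k1
      simp only [Q2, B1, B2, mem_union, mem_filter, mem_univ, true_and, shear2,
        Equiv.coe_fn_symm_mk]
      omega
    · intro a ha
      obtain ⟨k1, k2, k3⟩ := (mem_filter.1 ha).2
      have k4 := valMinAbs_sub_of_small k1 k2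
      simp only [Q2, B1, B2, mem_union, mem_filter, mem_univ, true_and, shear1,
        Equiv.coe_fn_symm_mk]
      omega
    · intro a ha a' ha' hh
      obtain ⟨k1, k2, k3⟩ := (mem_filter.1 ha).2
      have k4 := valMinAbs_sub_of_small k2 k1
      obtain ⟨l1, l2, l3⟩ := (mem_filter.1 ha').2
      have l4 := valMinAbs_sub_of_small l1 l2
      simp only [shear1, shear2, Equiv.coe_fn_symm_mk, Prod.mk.injEq] at hh
      have m1 := congrArg ZMod.valMinAbs hh.1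
      have m2 := congrArg ZMod.valMinAbs hh.2
      omega
  have tot : ∑ ξ ∈ univ.erase 0, μ ξ ≤ 31 * E' := by
    have c1 : ∑ ξ ∈ univ.erase 0, μ ξ ≤ ∑ ξ ∈ (Q1 ∪ Q2) ∪ (B1 ∪ B2), μ ξ := by
      refine sum_le_sum_of_subset_of_nonneg ?_ fun a _ _ => hμ0 a
      intro a ha
      have k1 : ¬ (a.1.valMinAbs = 0 ∧ a.2.valMinAbs = 0) := by
        rw [ZMod.valMinAbs_eq_zero, ZMod.valMinAbs_eq_zero]
        rintro ⟨k1, k2⟩
        exact (mem_erase.1 ha).1 (Prod.ext k1 k2)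
      simp only [Q1, Q2, B1, B2, mem_union, mem_filter, mem_univ, true_and]
      omega
    have c2 := sum_union_inter (s₁ := Q1 ∪ Q2) (s₂ := B1 ∪ B2) (f := μ)
    have c3 := sum_union_inter (s₁ := Q1) (s₂ := Q2) (f := μ)
    linarith [sum_nonneg (s := Q1 ∩ Q2) fun a _ => hμ0 a,
      sum_nonneg (s := (Q1 ∪ Q2) ∩ (B1 ∪ B2)) fun a _ => hμ0 a]
  have fin := sum_mu τ fun z => h (τ b z) - h z
  simp only [mu_tr hτ] at fin
  rw [← Finset.add_sum_erase _ _ (mem_univ (0 : ZMod N × ZMod N)), ch_zero_left] at fin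
  have fin2 : ∑ ξ ∈ univ.erase 0, ‖ch ξ (-b) - 1‖ ^ 2 * mu τ h ξ
      ≤ 4 * ∑ ξ ∈ univ.erase 0, μ ξ := by
    rw [mul_sum]
    refine sum_le_sum fun ξ _ => mul_le_mul_of_nonneg_right ?_ (hμ0 ξ)
    have k1 := norm_sub_le (ch ξ (-b)) 1
    rw [norm_ch, norm_one] at k1
    nlinarith [norm_nonneg (ch ξ (-b) - 1)]
  refine le_of_mul_le_mul_left ?_ hN
  rw [← fin]
  simp only [sub_self, norm_zero]
  nlinarith

end Vale.Agent.P090
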