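import Vale.Agent.P090.Core
import Vale.Agent.P090.RelT
import Vale.Agent.P090.Anal

namespace Vale.Agent.P090

open Finset Pointwise

abbrev HH (q : ℕ) : Type := ZMod (q + 1) × ZMod (q + 1)

abbrev GG : Type := ∀ q : ℕ, Equiv.Perm (HH q)

noncomputable instance : DecidableEq GG := Classical.decEq _

def tr (a b : ℕ) : GG := fun q => Equiv.addRight ((a : ZMod (q + 1)), (b : ZMod (q + 1)))

def sT : GG := fun q => shear1 (q + 1)

def sS : GG := fun q => shear2 (q + 1)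

noncomputable def S0 : Finset GG := {1, tr 1 0, tr 0 1, sT, sS}

noncomputable def SS : Finset GG := S0 ∪ S0⁻¹

theorem one_mem_SS : (1 : GG) ∈ SS := mem_union_left _ (by simp [S0])

theorem inv_mem_SS : ∀ s ∈ SS, s⁻¹ ∈ SS := by
  intro s hs
  rcases mem_union.1 hs with h | h
  · exact mem_union_right _ (inv_mem_inv h)
  · exact mem_union_left _ (mem_inv'.1 h)

def TT (n : ℕ) : Type := ∀ q : Fin n, Equiv.Perm (HH q)

noncomputable instance (n : ℕ) : Fintype (TT n) :=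
  inferInstanceAs (Fintype (∀ q : Fin n, Equiv.Perm (HH q)))

instance (n : ℕ) : Nonempty (TT n) := ⟨fun _ => 1⟩

instance (n : ℕ) : MulAction GG (TT n) where
  smul g t := fun q => g q * t q
  one_smul t := funext fun q => one_mul (t q)
  mul_smul g h t := funext fun q => mul_assoc (g q) (h q) (t q)

theorem TT_smul {n : ℕ} (g : GG) (t : TT n) (q : Fin n) : (g • t) q = g q * t q := rfl

theorem exists_free (F : Finset GG) :
    ∃ n, ∀ γ ∈ F, ∀ γ' ∈ F, ∀ t : TT n, γ • t = γ' • t → γ = γ' := by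
  have h : ∀ p : GG × GG, ∃ d, p.1 d = p.2 d → p.1 = p.2 := by
    intro p
    by_cases h : p.1 = p.2
    · exact ⟨0, fun _ => h⟩
    · obtain ⟨d, hd⟩ := Function.ne_iff.1 h
      exact ⟨d, fun h' => absurd h' hd⟩
  choose d hd using h
  refine ⟨(F ×ˢ F).sup d + 1, fun γ hγ γ' hγ' t ht => hd (γ, γ') ?_⟩
  have h1 : d (γ, γ') < (F ×ˢ F).sup d + 1 :=
    Nat.lt_succ_of_le (le_sup (f := d) (mem_product.2 ⟨hγ, hγ'⟩))
  have h2 := congrFun ht ⟨_, h1⟩
  rw [TT_smul, TT_smul] at h2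
  exact mul_right_cancel h2

instance (q : ℕ) : MulAction GG (HH q) where
  smul g x := g q x
  one_smul _ := rfl
  mul_smul _ _ _ := rfl

theorem HH_smul {q : ℕ} (g : GG) (x : HH q) : g • x = g q x := rfl

def XX (P : Type) : Type := (Σ q, HH q) ⊕ P

instance (P : Type) : MulAction GG (XX P) where
  smul g y := match y with
    | Sum.inl ⟨q, x⟩ => Sum.inl ⟨q, g • x⟩
    | Sum.inr p => Sum.inr p
  one_smul y := by rcases y with ⟨q, x⟩ | p <;> rfl
  mul_smul _ _ y := by rcases y with ⟨q, x⟩ | p <;> rfl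

def WW (P : Type) (Q : ℕ) : SubMulAction GG (XX P) where
  carrier := {y | ∀ q x, y = Sum.inl ⟨q, x⟩ → q < Q}
  smul_mem' := by
    rintro g (⟨q, x⟩ | p) h q' x' h'
    · have h1 : (⟨q, g • x⟩ : Σ q, HH q) = ⟨q', x'⟩ := Sum.inl_injective h'
      have h2 : q = q' := congrArg Sigma.fst h1
      exact h2 ▸ h q x rfl
    · exact absurd h' Sum.inr_ne_inl

theorem WW_finite (P : Type) [Finite P] (Q : ℕ) : Finite (WW P Q) := by
  let f : (Σ q : Fin Q, HH q) ⊕ P → XX P := fun y => match y with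
    | Sum.inl ⟨q, x⟩ => Sum.inl ⟨q, x⟩
    | Sum.inr p => Sum.inr p
  refine ((Set.finite_range f).subset ?_ : ((WW P Q : Set (XX P))).Finite)
  rintro (⟨q, x⟩ | p) h
  · exact ⟨Sum.inl ⟨⟨q, h q x rfl⟩, x⟩, rfl⟩
  · exact ⟨Sum.inr p, rfl⟩

theorem exists_WW {P : Type} (B : Finset (XX P)) : ∃ Q, ∀ y ∈ B, y ∈ WW P Q := by
  let d : XX P → ℕ := fun y => match y with
    | Sum.inl ⟨q, _⟩ => q
    | Sum.inr _ => 0
  refine ⟨B.sup d + 1, fun y hy q x h => Nat.lt_succ_of_le ?_⟩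
  have := le_sup (f := d) hy
  rw [h] at this
  exact this

theorem cast_val {N d : ℕ} (h : d ∣ N) (k : ℕ) : (((k : ZMod N).val : ℕ) : ZMod d) = k := by
  rw [ZMod.val_natCast]
  exact (ZMod.natCast_eq_natCast_iff _ _ _).2 ((Nat.mod_modEq _ _).of_dvd h)

theorem cast_val_add {N d : ℕ} [NeZero N] (h : d ∣ N) (a b : ZMod N) :
    (((a + b).val : ℕ) : ZMod d) = a.val + b.val := by
  have := cast_val h (a.val + b.val)
  simpa using this

theorem act_congr {P : Type} {n Q q₀ : ℕ} {g g' : GG} (h1 : ∀ q < n, g q = g' q)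
    (h2 : ∀ q < Q, g q = g' q) (z : TT n × HH q₀ × WW P Q) :
    (g • z).1 = (g' • z).1 ∧ (g • z).2.2 = (g' • z).2.2 := by
  obtain ⟨t, x, y, hy⟩ := z
  refine ⟨funext fun q => ?_, Subtype.ext ?_⟩
  · change g q * t q = g' q * t q
    rw [h1 q q.2]
  · rcases y with ⟨q, x⟩ | p
    · change (Sum.inl ⟨q, g q x⟩ : XX P) = Sum.inl ⟨q, g' q x⟩
      rw [h2 q (hy q x rfl)]
    · rfl

theorem spectral {P : Type} (n Q N' m : ℕ) [Fintype (WW P Q)] (hN0 : N' ≠ 0)
    (d1 : ∀ q < n, q + 1 ∣ N') (d2 : ∀ q < Q, q + 1 ∣ N')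
    (h : TT n × HH (N' * m) × WW P Q → ℝ) {E : ℝ}
    (hE : ∀ s ∈ SS, ∑ z, (h (s • z) - h z) ^ 2 ≤ E) (c : HH (N' * m)) :
    ∑ z : TT n × HH (N' * m) × WW P Q, (h (z.1, z.2.1 + c, z.2.2) - h z) ^ 2 ≤ 124 * E := by
  obtain ⟨N, hN⟩ : ∃ N, N = (N' * m + 1) * N' := ⟨_, rfl⟩
  have : NeZero N := ⟨hN ▸ Nat.mul_ne_zero (Nat.succ_ne_zero _) hN0⟩
  have cg : ∀ g g' : GG, (∀ q, q + 1 ∣ N → g q = g' q) →
      ∀ z : TT n × HH (N' * m) × WW P Q, g • z = g' • z := by
    intro g g' hg z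
    obtain ⟨k1, k2⟩ := act_congr (fun q hq => hg q (hN ▸ (d1 q hq).mul_left _))
      (fun q hq => hg q (hN ▸ (d2 q hq).mul_left _)) z
    refine Prod.ext k1 (Prod.ext ?_ k2)
    change g _ z.2.1 = g' _ z.2.1
    rw [hg _ (Dvd.intro _ hN.symm)]
  let τ : ZMod N × ZMod N → Equiv.Perm (TT n × HH (N' * m) × WW P Q) := fun a =>
    MulAction.toPerm (tr a.1.val a.2.val)
  have hτ' : ∀ a b : ℕ, ∀ z, τ (a, b) z = tr a b • z := by
    intro a b z
    refine cg _ _ (fun q hq => ?_) z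
    simp only [tr, cast_val hq]
  have key := relT (τ := τ) (fun a b z => by
      change tr _ _ • z = tr _ _ • tr _ _ • z
      rw [← mul_smul]
      refine cg _ _ (fun q hq => ?_) z
      ext x <;> simp [tr, cast_val_add hq, -ZMod.natCast_val] <;> ring)
    (MulAction.toPerm sT) (MulAction.toPerm sS)
    (fun a z => by
      change sT • tr _ _ • z = tr _ _ • sT • z
      rw [← mul_smul, ← mul_smul]
      refine cg _ _ (fun q hq => ?_) z
      ext x <;> simp [tr, sT, shear1, cast_val_add hq, -ZMod.natCast_val] <;> ring)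
    (fun a z => by
      change sS • tr _ _ • z = tr _ _ • sS • z
      rw [← mul_smul, ← mul_smul]
      refine cg _ _ (fun q hq => ?_) z
      ext x <;> simp [tr, sS, shear2, cast_val_add hq, -ZMod.natCast_val] <;> ring)
    h (E := E)
    (by
      have e := hτ' 1 0
      simp only [Nat.cast_one, Nat.cast_zero] at e
      simp only [e]
      exact hE _ (mem_union_left _ (by simp [S0])))
    (by
      have e := hτ' 0 1
      simp only [Nat.cast_one, Nat.cast_zero] at e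
      simp only [e]
      exact hE _ (mem_union_left _ (by simp [S0])))
    (hE _ (mem_union_left _ (by simp [S0]))) (hE _ (mem_union_left _ (by simp [S0])))
    (((N' * m * (-c.1).val : ℕ) : ZMod N), ((N' * m * (-c.2).val : ℕ) : ZMod N))
  simp only [hτ'] at key
  refine le_of_eq_of_le (sum_congr rfl fun z _ => ?_) key
  have triv : ∀ q, q + 1 ∣ N' → tr (N' * m * (-c.1).val) (N' * m * (-c.2).val) q = (1 : GG) q := by
    intro q hq
    have e : ((N' : ℕ) : ZMod (q + 1)) = 0 := (ZMod.natCast_eq_zero_iff _ _).2 hq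
    ext x <;> simp [tr, e]
  obtain ⟨k1, k2⟩ := act_congr (fun q hq => triv q (d1 q hq)) (fun q hq => triv q (d2 q hq)) z
  rw [one_smul] at k1 k2
  congr 3
  refine Prod.ext k1.symm (Prod.ext ?_ k2.symm)
  have e : ((N' * m : ℕ) : ZMod (N' * m + 1)) = -1 := by
    rw [eq_neg_iff_add_eq_zero]
    exact_mod_cast ZMod.natCast_self (N' * m + 1)
  change z.2.1 + c = z.2.1 + (_, _)
  congr 1
  ext
  · simp only [Nat.cast_mul (N' * m), e, ZMod.natCast_val, ZMod.cast_id', id_eq]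
    ring
  · simp only [Nat.cast_mul (N' * m), e, ZMod.natCast_val, ZMod.cast_id', id_eq]
    ring

end Vale.Agent.P090
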