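import Vale.Agent.P090.Inst

namespace Vale.Agent.P090

open Finset Pointwise

def Prof (m R : ℕ) : Type :=
  {p : Fin m → Fin (R + 1) // (univ.filter fun i => (p i : ℕ) ≠ 0).card ≤ (SS ^ R).card}

noncomputable instance (m R : ℕ) : Fintype (Prof m R) := by
  unfold Prof
  infer_instance

noncomputable def prof (m R : ℕ) {q : ℕ} (x : HH q) (i : Fin m) : ℕ :=
  rc SS R fun γ => (γ • x).1.val % m = i

theorem prof_supp {m : ℕ} (R : ℕ) {q : ℕ} (x : HH q) :
    (univ.filter fun i => prof m R x i ≠ 0).card ≤ (SS ^ R).card := by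
  have h : ∀ i : Fin m, prof m R x i ≠ 0 → ∃ γ ∈ SS ^ R, (γ • x).1.val % m = i := fun i hi =>
    rc_ne_zero one_mem_SS hi
  choose! f hf using h
  refine card_le_card_of_injOn f (fun i hi => (hf i (mem_filter.1 (mem_coe.1 hi)).2).1) ?_
  intro i hi j hj hij
  have h1 := (hf i (mem_filter.1 (mem_coe.1 hi)).2).2
  have h2 := (hf j (mem_filter.1 (mem_coe.1 hj)).2).2
  rw [hij, h2] at h1
  exact (Fin.ext h1).symm

noncomputable def toProf (m R : ℕ) : XX (Prof m R) → Prof m R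
  | Sum.inl ⟨_, x⟩ => ⟨fun i => ⟨prof m R x i, Nat.lt_succ_of_le (cnt_le _ _)⟩, prof_supp R x⟩
  | Sum.inr p => p

theorem toProf_smul {m R j : ℕ} {γ : GG} (hγ : γ ∈ SS ^ j) (y : XX (Prof m R)) (i : Fin m) :
    ((toProf m R (γ • y)).1 i : ℕ) ≤ (toProf m R y).1 i + j := by
  rcases y with ⟨q, x⟩ | p
  · change prof m R (γ • x) i ≤ prof m R x i + j
    refine rc_right R hγ fun γ' h => ?_
    rwa [mul_smul]
  · exact Nat.le_add_right _ _

theorem card_cls {m : ℕ} (q : ℕ) (i : ℕ) :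
    (univ.filter fun x : ZMod (q + 1) => x.val % m = i).card ≤ (q + 1) / m + 1 := by
  rw [← card_range ((q + 1) / m + 1)]
  refine card_le_card_of_injOn (fun x => x.val / m) (fun x _ => ?_) fun x hx y hy hxy => ?_
  · exact mem_coe.2 (mem_range.2 (Nat.lt_succ_of_le (Nat.div_le_div_right (ZMod.val_lt x).le)))
  · have h1 := (mem_filter.1 (mem_coe.1 hx)).2
    have h2 := (mem_filter.1 (mem_coe.1 hy)).2
    apply ZMod.val_injective
    rw [← Nat.div_add_mod x.val m, ← Nat.div_add_mod y.val m, h1, h2]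
    simp only at hxy
    rw [hxy]

theorem count_cls {m : ℕ} (hm : 0 < m) (q : ℕ) (hq : m ≤ q + 1) (a : Fin m → ℝ)
    (ha : ∀ i, a i ≤ 1) (I : Finset (Fin m)) (hI : ∀ i, i ∉ I → a i = 0) :
    ∑ ω : HH q, a ⟨ω.1.val % m, Nat.mod_lt _ hm⟩ ≤ 2 * I.card / m * Fintype.card (HH q) := by
  have e1 : ∑ x : ZMod (q + 1), a ⟨x.val % m, Nat.mod_lt _ hm⟩
      ≤ ∑ x : ZMod (q + 1), ∑ i ∈ I, if x.val % m = i then (1 : ℝ) else 0 := by
    refine sum_le_sum fun x _ => ?_
    by_cases h : (⟨x.val % m, Nat.mod_lt _ hm⟩ : Fin m) ∈ I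
    · refine (ha _).trans ?_
      have := single_le_sum (f := fun i : Fin m => if x.val % m = i then (1 : ℝ) else 0)
        (fun i _ => by positivity) h
      simpa using this
    · rw [hI _ h]
      exact sum_nonneg fun i _ => by positivity
  have hm' : (0 : ℝ) < m := by exact_mod_cast hm
  have e2 : ∀ i : Fin m, (∑ x : ZMod (q + 1), if x.val % m = i then (1 : ℝ) else 0)
      ≤ 2 * (q + 1 : ℕ) / m := by
    intro i
    rw [sum_boole, le_div_iff₀ hm']
    have h1 := card_cls (m := m) q i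
    have h2 := Nat.div_mul_le_self (q + 1) m
    have h3 : (univ.filter fun x : ZMod (q + 1) => x.val % m = i).card * m ≤ 2 * (q + 1) := by
      nlinarith
    exact_mod_cast h3
  rw [sum_comm] at e1
  have e3 := e1.trans (sum_le_sum fun i _ => e2 i)
  rw [Fintype.sum_prod_type, sum_comm]
  change ∑ _y : ZMod (q + 1), ∑ x : ZMod (q + 1), a ⟨x.val % m, Nat.mod_lt _ hm⟩ ≤ _
  simp only [sum_const, card_univ, ZMod.card, nsmul_eq_mul, Fintype.card_prod] at e3 ⊢
  refine (mul_le_mul_of_nonneg_left e3 (Nat.cast_nonneg _)).trans (le_of_eq ?_)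
  push_cast
  ring

theorem bad (k : ℕ) (hk : 1 ≤ k) :
    ∃ (V : Type) (E : V → V → ℝ → Prop) (D : ℝ), (∀ u v l, E u v l → 1 ≤ l) ∧ 1 ≤ D ∧
      ∃ A, ¬ Good E D k A := by
  classical
  have hk' : (1 : ℝ) ≤ k := by exact_mod_cast hk
  obtain ⟨L, hL⟩ : ∃ L : ℕ, L = 4000 * (3 + 2 * k * (4000 * k)) := ⟨_, rfl⟩
  have hL' : (L : ℝ) = 4000 * (3 + 2 * k * (4000 * k)) := by exact_mod_cast hL
  have hL0 : (0 : ℝ) < L := by rw [hL']; positivity
  obtain ⟨R, hR⟩ : ∃ R : ℕ, R = L * L := ⟨_, rfl⟩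
  have hR' : (R : ℝ) = L * L := by exact_mod_cast hR
  have hR0 : (0 : ℝ) < R := by rw [hR']; positivity
  obtain ⟨m, hm⟩ : ∃ m : ℕ, m = 100 * (SS ^ R).card * (2 * k + 3) + 1 := ⟨_, rfl⟩
  have hm0 : 0 < m := by omega
  have hm' : (m : ℝ) = 100 * (SS ^ R).card * (2 * k + 3) + 1 := by exact_mod_cast hm
  obtain ⟨n, hn⟩ := exists_free (SS ^ (L + 1))
  let π : XX (Prof m R) → XX (Prof m R) := fun y => Sum.inr (toProf m R y)
  have hD : (1 : ℝ) ≤ 4000 * k := by linarith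
  have hDL : (4000 * k : ℝ) ≤ L := by rw [hL']; nlinarith
  refine ⟨TT n × XX (Prof m R), Ed SS π (4000 * k), L, ?_, hD.trans hDL,
    univ.image fun a : TT n × Prof m R => (a.1, Sum.inr a.2), fun hg => ?_⟩
  · rintro u v l (⟨s, -, -, rfl⟩ | ⟨-, rfl⟩)
    · exact le_rfl
    · exact hD
  obtain ⟨B, hB⟩ := geom one_mem_SS inv_mem_SS hn π (fun _ _ => rfl) hD hDL _
    (fun t x => mem_image.2 ⟨(t, toProf m R x), mem_univ _, rfl⟩) hg
  obtain ⟨Q, hQ⟩ := exists_WW B
  have := WW_finite (Prof m R) Q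
  let _ : Fintype (WW (Prof m R) Q) := Fintype.ofFinite _
  obtain ⟨g, g1, g2, g3⟩ := hB (WW (Prof m R) Q) hQ
  obtain ⟨N', hN0, d1, d2⟩ : ∃ N' : ℕ, N' ≠ 0 ∧ (∀ q < n, q + 1 ∣ N') ∧ ∀ q < Q, q + 1 ∣ N' :=
    ⟨(n + Q).factorial, Nat.factorial_ne_zero _,
      fun q hq => Nat.dvd_factorial (Nat.succ_pos _) (by omega),
      fun q hq => Nat.dvd_factorial (Nat.succ_pos _) (by omega)⟩
  let j : HH (N' * m) → XX (Prof m R) := fun ω => Sum.inl ⟨_, ω⟩
  let cls : HH (N' * m) → Fin m := fun ω => ⟨ω.1.val % m, Nat.mod_lt _ hm0⟩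
  let η : Fin m → XX (Prof m R) → ℝ := fun i y => (((toProf m R y).1 i : ℕ) : ℝ) / R
  have η0 : ∀ i y, 0 ≤ η i y := fun i y => by positivity
  have η1 : ∀ i y, η i y ≤ 1 := fun i y =>
    div_le_one_of_le₀ (by exact_mod_cast Nat.le_of_lt_succ ((toProf m R y).1 i).2) hR0.le
  have key := anal (T := TT n) (fun t ω w => g t (j ω) w) (fun ω w => η (cls ω) w)
    (K := 2 * k + 3) (θ := 124 * (2 * k / (4000 * k) + (3 + 2 * k * (4000 * k)) / L))
    (δ := 2 * (SS ^ R).card / m) (κ := 1 - (1 + k * (4000 * k)) / L) (by positivity)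
    (fun t ω => g1 t _) (fun ω w => η0 _ _) (fun ω w => η1 _ _) (fun w => ?_) (fun t ω => ?_)
    (fun c => ?_)
  · have e1 : (2 * k / (4000 * k) : ℝ) = 1 / 2000 := by field_simp; norm_num
    have e2 : (3 + 2 * k * (4000 * k) : ℝ) / L = 1 / 4000 := by rw [hL']; field_simp
    have e3 : (1 + k * (4000 * k) : ℝ) / L ≤ 1 / 4000 := by
      rw [← e2]
      refine div_le_div_of_nonneg_right ?_ hL0.le
      nlinarith
    have e4 : 2 * (2 * ((SS ^ R).card : ℝ) / m) * (2 * k + 3) ≤ 4 / 100 := by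
      have hm0' : (0 : ℝ) < m := by exact_mod_cast hm0
      have : 2 * (2 * ((SS ^ R).card : ℝ) / m) * (2 * k + 3)
          = (4 * (SS ^ R).card * (2 * k + 3)) / m := by ring
      rw [this, div_le_iff₀ hm0', hm']
      linarith
    rw [e1, e2] at key
    linarith
  · refine (count_cls hm0 (N' * m) ?_ (fun i => η i w) (fun i => η1 _ _)
      (univ.filter fun i => ((toProf m R w).1 i : ℕ) ≠ 0) fun i hi => ?_).trans ?_
    · exact (Nat.le_mul_of_pos_left m (Nat.pos_of_ne_zero hN0)).trans (Nat.le_succ _)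
    · have : ((toProf m R w).1 i : ℕ) = 0 := by simpa using hi
      simp only [η, this, Nat.cast_zero, zero_div]
    · have h1 : ((univ.filter fun i => ((toProf m R w).1 i : ℕ) ≠ 0).card : ℝ)
          ≤ (SS ^ R).card := by exact_mod_cast (toProf m R w).2
      gcongr
  · have h1 := g3 (η (cls ω)) (fun y => by rw [abs_of_nonneg (η0 _ _)]; exact η1 _ _)
      (fun γ hγ y => by
        have k1 := toProf_smul hγ y (cls ω)
        have k2 := toProf_smul (inv_mem_pow inv_mem_SS hγ) (γ • y) (cls ω)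
        rw [inv_smul_smul] at k2
        have k1' : (((toProf m R (γ • y)).1 (cls ω) : ℕ) : ℝ)
            ≤ (((toProf m R y).1 (cls ω) : ℕ) : ℝ) + L := by exact_mod_cast k1
        have k2' : (((toProf m R y).1 (cls ω) : ℕ) : ℝ)
            ≤ (((toProf m R (γ • y)).1 (cls ω) : ℕ) : ℝ) + L := by exact_mod_cast k2
        change |(((toProf m R (γ • y)).1 (cls ω) : ℕ) : ℝ) / R
          - (((toProf m R y).1 (cls ω) : ℕ) : ℝ) / R| ≤ _
        rw [← sub_div, abs_div, abs_of_pos hR0, div_le_iff₀ hR0, hR', ← mul_assoc,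
          one_div_mul_cancel hL0.ne', one_mul, abs_le]
        constructor <;> linarith) t (j ω)
    have h2 : η (cls ω) (π (j ω)) = 1 := by
      change ((prof m R ω (cls ω) : ℕ) : ℝ) / R = 1
      rw [prof, rc_one one_mem_SS R (by rw [one_smul]), div_self hR0.ne']
    rwa [h2] at h1
  · have h1 := spectral n Q N' m hN0 d1 d2
      (fun z : TT n × HH (N' * m) × WW (Prof m R) Q => √(max (g z.1 (j z.2.1) z.2.2) 0))
      (E := (2 * k / (4000 * k) + (3 + 2 * k * (4000 * k)) / L)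
        * (Fintype.card (TT n) * Fintype.card (HH (N' * m)))) (fun s hs => ?_) c
    · simp only [Fintype.sum_prod_type (α₁ := TT n),
        Fintype.sum_prod_type (α₁ := HH (N' * m))] at h1
      rw [mul_assoc]
      exact h1
    · have e : (2 * k / (4000 * k) + (3 + 2 * k * (4000 * k)) / L : ℝ)
          * (Fintype.card (TT n) * Fintype.card (HH (N' * m)))
          = ∑ _t : TT n, ∑ _ω : HH (N' * m),
            (2 * k / (4000 * k) + (3 + 2 * k * (4000 * k)) / L : ℝ) := by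
        simp only [sum_const, card_univ, nsmul_eq_mul]
        ring
      rw [e]
      simp only [Fintype.sum_prod_type (α₁ := TT n), Fintype.sum_prod_type (α₁ := HH (N' * m))]
      refine sum_le_sum fun t _ => sum_le_sum fun ω _ => le_trans ?_ (g2 s hs t (j ω))
      exact sum_le_sum fun w _ => sqrt_sub_sq _ _

theorem main : ∃ (M : Type) (_ : MetricSpace M) (o : M),
    (∃ θ : ℝ, 0 < θ ∧ ∀ x y : M, x ≠ y → θ ≤ dist x y) ∧ ¬ BAP (Free M o) := by
  have h : ∀ k : ℕ, ∃ (V : Type) (E : V → V → ℝ → Prop) (D : ℝ),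
      (∀ u v l, E u v l → 1 ≤ l) ∧ 1 ≤ D ∧ (1 ≤ k → ∃ A, ¬ Good E D k A) := by
    intro k
    by_cases hk : 1 ≤ k
    · obtain ⟨V, E, D, h1, h2, h3⟩ := bad k hk
      exact ⟨V, E, D, h1, h2, fun _ => h3⟩
    · exact ⟨Unit, fun _ _ _ => False, 1, fun _ _ _ h => h.elim, le_rfl, fun h => absurd h hk⟩
  choose V E D h1 h2 h3 using h
  exact exists_not_BAP V E D h1 h2 h3

end Vale.Agent.P090
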