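import Vale.Agent.P090.Defs

namespace Vale.Agent.P090

open Finset

theorem approx_span {M D Y : Type} [NormedAddCommGroup D] [NormedSpace ℝ D]
    [NormedAddCommGroup Y] [NormedSpace ℝ Y] [FiniteDimensional ℝ Y] (s : M → D)
    (j : Y →L[ℝ] D)
    (hj : ∀ y, j y ∈ (Submodule.span ℝ (Set.range s)).topologicalClosure) {η : ℝ} (hη : 0 < η) :
    ∃ (B : Finset M) (c : Y →ₗ[ℝ] (M → ℝ)), ∀ y, ‖∑ b ∈ B, c y b • s b - j y‖ ≤ η * ‖y‖ := by
  classical
  let v := Module.finBasis ℝ Y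
  obtain ⟨C, hC, hv⟩ := v.exists_opNorm_le (F := D)
  have h1 : ∀ i, ∃ w : M →₀ ℝ, ‖(w.sum fun b a => a • s b) - j (v i)‖ ≤ η / C := by
    intro i
    have h := hj (v i)
    rw [← SetLike.mem_coe, Submodule.topologicalClosure_coe, Metric.mem_closure_iff] at h
    obtain ⟨d, hd, hd'⟩ := h (η / C) (div_pos hη hC)
    obtain ⟨w, hw⟩ := Finsupp.mem_span_range_iff_exists_finsupp.1 hd
    refine ⟨w, ?_⟩
    rw [hw, ← dist_eq_norm, dist_comm]
    exact hd'.le
  choose w hw using h1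
  let B : Finset M := univ.biUnion fun i => (w i).support
  have hB : ∀ i, ((w i).sum fun b a => a • s b) = ∑ b ∈ B, w i b • s b := by
    intro i
    refine Finsupp.sum_of_support_subset _ ?_ _ (fun b _ => by simp)
    exact subset_biUnion_of_mem (fun i => (w i).support) (mem_univ i)
  let c : Y →ₗ[ℝ] (M → ℝ) := v.constr ℝ fun i => (w i : M → ℝ)
  let φ : Y →L[ℝ] D := v.constrL fun i => (w i).sum fun b a => a • s b
  have hφ : ∀ y, φ y = ∑ b ∈ B, c y b • s b := by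
    intro y
    simp only [φ, c, Module.Basis.constrL_apply, Module.Basis.constr_apply_fintype, hB,
      Finset.sum_apply, Pi.smul_apply, smul_eq_mul, Finset.smul_sum, Finset.sum_smul, mul_smul]
    exact Finset.sum_comm
  refine ⟨B, c, fun y => ?_⟩
  have h2 : ‖φ - j‖ ≤ C * (η / C) := by
    refine hv (div_pos hη hC).le fun i => ?_
    simp only [_root_.sub_apply, φ, Module.Basis.constrL_basis]
    exact hw i
  rw [mul_div_cancel₀ _ hC.ne'] at h2
  have h3 := (φ - j).le_of_opNorm_le h2 y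
  rwa [_root_.sub_apply, hφ] at h3

theorem reduce_abs {M D : Type} [NormedAddCommGroup D] [NormedSpace ℝ D] (s : M → D)
    (h : BAP (Submodule.span ℝ (Set.range s)).topologicalClosure) :
    ∃ lam : ℝ, 1 ≤ lam ∧ ∀ A : Finset M, ∃ (B : Finset M) (ν : M → M → ℝ),
      (∀ u v, ‖∑ b ∈ B, ν u b • s b - ∑ b ∈ B, ν v b • s b‖ ≤ lam * ‖s u - s v‖) ∧
        ∀ a ∈ A, ‖∑ b ∈ B, ν a b • s b - s a‖ ≤ 1 := by
  obtain ⟨lam, hlam, h⟩ := h
  refine ⟨2 * lam, by linarith, fun A => ?_⟩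
  set X := (Submodule.span ℝ (Set.range s)).topologicalClosure with hX
  let d : M → X := fun x =>
    ⟨s x, Submodule.le_topologicalClosure _ (Submodule.subset_span ⟨x, rfl⟩)⟩
  obtain ⟨T, hT1, hT2, hT3⟩ := h (d '' (A : Set M)) ((A.finite_toSet.image d).isCompact) (1 / 2)
    (by norm_num)
  let K : ℝ := ∑ a ∈ A, ‖s a‖
  have hK0 : 0 ≤ K := sum_nonneg fun _ _ => norm_nonneg _
  have hK : ∀ a ∈ A, ‖s a‖ ≤ K := fun a ha =>
    single_le_sum (f := fun a => ‖s a‖) (fun _ _ => norm_nonneg _) ha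
  let η : ℝ := 1 / (2 * (lam * K + 1))
  have hden : 0 < 2 * (lam * K + 1) := by positivity
  have hη : 0 < η := by positivity
  have hη1 : η ≤ 1 := by
    rw [div_le_one hden]
    nlinarith [mul_nonneg (by linarith : (0 : ℝ) ≤ lam) hK0]
  have hη2 : η * (lam * K) ≤ 1 / 2 := by
    rw [div_mul_eq_mul_div, div_le_iff₀ hden]
    linarith
  let Y := LinearMap.range T.toLinearMap
  let j : Y →L[ℝ] D := X.subtypeL.comp Y.subtypeL
  obtain ⟨B, c, hc⟩ := approx_span (Y := Y) s j (fun y : Y => y.1.2) hη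
  let T' : X → Y := fun u => ⟨T u, u, rfl⟩
  have hj : ∀ y : Y, ‖j y‖ = ‖y‖ := fun y => rfl
  refine ⟨B, fun u b => c (T' (d u)) b, fun u v => ?_, fun a ha => ?_⟩
  · have e1 : ∑ b ∈ B, c (T' (d u)) b • s b - ∑ b ∈ B, c (T' (d v)) b • s b
        = ∑ b ∈ B, c (T' (d u) - T' (d v)) b • s b := by
      rw [← sum_sub_distrib]
      refine sum_congr rfl fun b _ => ?_
      rw [map_sub, Pi.sub_apply, sub_smul]
    have e2 : ‖T' (d u) - T' (d v)‖ ≤ lam * ‖s u - s v‖ := by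
      have e3 : ‖T' (d u) - T' (d v)‖ = ‖T (d u - d v)‖ := by
        rw [T.map_sub]
        rfl
      rw [e3]
      exact T.le_of_opNorm_le hT2 _
    rw [e1]
    set y := T' (d u) - T' (d v)
    have h1 := hc y
    have h2 := hj y
    have h3 := norm_add_le (∑ b ∈ B, c y b • s b - j y) (j y)
    rw [sub_add_cancel] at h3
    have h4 : η * ‖y‖ ≤ ‖y‖ := mul_le_of_le_one_left (norm_nonneg _) hη1
    linarith
  · have h1 := hc (T' (d a))
    have h2 : ‖T' (d a)‖ ≤ lam * K := by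
      have e3 : ‖T' (d a)‖ = ‖T (d a)‖ := rfl
      rw [e3]
      exact (T.le_of_opNorm_le hT2 _).trans (mul_le_mul_of_nonneg_left (hK a ha) (by linarith))
    have h3 : ‖j (T' (d a)) - s a‖ ≤ 1 / 2 := (hT3 (d a) ⟨a, ha, rfl⟩).le
    have h4 := norm_add_le (∑ b ∈ B, c (T' (d a)) b • s b - j (T' (d a))) (j (T' (d a)) - s a)
    rw [sub_add_sub_cancel] at h4
    have h5 : η * ‖T' (d a)‖ ≤ 1 / 2 := (mul_le_mul_of_nonneg_left h2 hη.le).trans hη2
    linarith

variable {M : Type} [MetricSpace M] {o : M}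

theorem norm_delta_sub (x y : M) : ‖delta M o x - delta M o y‖ ≤ dist x y := by
  refine ContinuousLinearMap.opNorm_le_bound _ dist_nonneg fun f => ?_
  have h := le_lipConst f x y
  rw [mul_comm] at h
  exact h

theorem reduce (h : BAP (Free M o)) :
    ∃ lam : ℝ, 1 ≤ lam ∧ ∀ A : Finset M, ∃ (B : Finset M) (ν : M → M → ℝ),
      ∀ (F : M → ℝ) (c : ℝ), 0 ≤ c → F o = 0 → (∀ x y, |F x - F y| ≤ c * dist x y) →
        (∀ u v, |∑ b ∈ B, ν u b * F b - ∑ b ∈ B, ν v b * F b| ≤ lam * c * dist u v) ∧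
        ∀ a ∈ A, |∑ b ∈ B, ν a b * F b - F a| ≤ c := by
  obtain ⟨lam, hlam, h⟩ := reduce_abs (delta M o) h
  refine ⟨lam, hlam, fun A => ?_⟩
  obtain ⟨B, ν, h1, h2⟩ := h A
  refine ⟨B, ν, fun F e he hF0 hF => ?_⟩
  let f : Lip0 M o := ⟨F, hF0, e, he, hF⟩
  have hf : ‖f‖ ≤ e := lipConst_le he hF
  have key : ∀ φ : StrongDual ℝ (Lip0 M o), |φ f| ≤ ‖φ‖ * e := fun φ =>
    (φ.le_opNorm f).trans (mul_le_mul_of_nonneg_left hf (norm_nonneg _))
  have ev : ∀ u, (∑ b ∈ B, ν u b • delta M o b) f = ∑ b ∈ B, ν u b * F b := by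
    intro u
    rw [_root_.sum_apply]
    rfl
  refine ⟨fun u v => ?_, fun a ha => ?_⟩
  · have h3 := key (∑ b ∈ B, ν u b • delta M o b - ∑ b ∈ B, ν v b • delta M o b)
    rw [_root_.sub_apply, ev, ev] at h3
    have h4 := (h1 u v).trans
      (mul_le_mul_of_nonneg_left (norm_delta_sub (o := o) u v) (by linarith))
    have h5 := mul_le_mul_of_nonneg_right h4 he
    linarith
  · have h3 := key (∑ b ∈ B, ν a b • delta M o b - delta M o a)
    rw [_root_.sub_apply, ev] at h3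
    have h5 := mul_le_mul_of_nonneg_right (h2 a ha) he
    rw [one_mul] at h5
    exact h3.trans h5

end Vale.Agent.P090
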